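import Vale.Agent.P284Z.B.Char
import Vale.Agent.P284Z.Spec

/-!
# P284Z, block B: the fields of the characteristic space act finitely; the statement `StB`
-/

set_option linter.all false

open Set Filter Topology

noncomputable section

namespace Vale.Agent.P284Z.DA

variable {K : Type} [Field K] {n : ℕ} {D : Der K n} {I σ Λ Λ' : Type} [AddCommGroup Λ]
  [LinearOrder Λ] [IsOrderedAddMonoid Λ] [AddCommGroup Λ'] [LinearOrder Λ'] [IsOrderedAddMonoid Λ']
  {v x : I → K} {b : Fin n → K} {i₀ : Fin n}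

/-- a function with two values -/
def two {α : Type} (i₀ : Fin n) (u u' : α) : Fin n → α := fun j => if j = i₀ then u else u'

/-- the number of the other letters -/
def cB (i₀ : Fin n) (l : List (Fin n)) : ℕ := l.countP (· != i₀)

theorem wt_two (u u' : ℝ) (l : List (Fin n)) :
    wt (two i₀ u u') l = l.count i₀ * u + cB i₀ l * u' := by
  induction l with
  | nil => simp [wt, cB]
  | cons j l ih =>
    rw [wt_cons, ih]
    by_cases h : j = i₀ <;> simp [two, cB, h, List.count_cons] <;> ring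

theorem pr_two {L : Type} [CommRing L] (u u' : L) (l : List (Fin n)) :
    pr (two i₀ u u') l = u ^ l.count i₀ * u' ^ cB i₀ l := by
  induction l with
  | nil => simp [pr, cB]
  | cons j l ih =>
    rw [pr_cons, ih]
    by_cases h : j = i₀ <;> simp [two, cB, h, List.count_cons] <;> ring

theorem two_one : two i₀ (1 : ℝ) 1 = fun _ => 1 := funext fun _ => ite_self _

theorem length_eq (i₀ : Fin n) (l : List (Fin n)) : (l.length : ℝ) = l.count i₀ + cB i₀ l := by
  rw [← wt_one, ← two_one (i₀ := i₀), wt_two, mul_one, mul_one]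

theorem vf_E (a : Fin n → K) (j i : Fin n) : D.vf a (E K n j i) = 0 := by
  rw [E, Pi.single_apply]
  split_ifs
  exacts [vf_one D a, vf_zero D a]

theorem upd_span (hb : b i₀ = 1) (c : Fin n → K) :
    ∑ i, (c - c i₀ • b + c i₀ • E K n i₀) i • Function.update (E K n) i₀ b i = c := by
  have h : ∀ i, (c - c i₀ • b + c i₀ • E K n i₀) i • Function.update (E K n) i₀ b i =
      (c - c i₀ • b) i • E K n i + if i = i₀ then c i₀ • b else 0 := fun i => by
    by_cases hi : i = i₀ <;> simp [hi, hb, E]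
  simp only [h, Finset.sum_add_distrib, sum_E, Finset.sum_ite_eq', Finset.mem_univ, if_true,
    sub_add_cancel]

theorem cp_upd (hb : b i₀ = 1) {ω : Fin n → Λ} (hp : ∀ i, 0 < ω i)
    (h : ∀ m ≠ i₀, ∀ j ≠ i₀, ω m < ω i₀ + ω j) : Cp D (Function.update (E K n) i₀ b) ω := by
  have key : ∀ j ≠ i₀, br D b (E K n j) ∈ Submodule.span K
      (Function.update (E K n) i₀ b '' {m | ω m < ω i₀ + ω j}) := fun j hj => by
    rw [← sum_E (br D b _)]
    refine Submodule.sum_mem _ fun m _ => ?_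
    by_cases hm : m = i₀
    · rw [hm, br, hb, vf_one, vf_E, sub_self, zero_smul]
      exact Submodule.zero_mem _
    · exact Submodule.smul_mem _ _
        (Submodule.subset_span ⟨m, h m hm j hj, Function.update_of_ne hm _ _⟩)
  refine ⟨hp, fun i j => ?_⟩
  by_cases hi : i = i₀ <;> by_cases hj : j = i₀
  · rw [hi, hj, show br D _ _ = 0 from funext fun _ => sub_self _]
    exact Submodule.zero_mem _
  · rw [hi, Function.update_self, Function.update_of_ne hj]
    exact key j hj
  · rw [hj, Function.update_self, Function.update_of_ne hi, add_comm,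
      show br D (E K n i) b = -br D b (E K n i) from funext fun _ => (neg_sub _ _).symm]
    exact Submodule.neg_mem _ (key i hi)
  · rw [Function.update_of_ne hi, Function.update_of_ne hj,
      show br D _ _ = 0 from funext fun _ => by rw [br, vf_E, vf_E, sub_self]; rfl]
    exact Submodule.zero_mem _

theorem cp_two (hb : b i₀ = 1) {q : ℝ} (hq : 0 < q) :
    Cp D (Function.update (E K n) i₀ b) (two i₀ 1 q) :=
  cp_upd hb (fun i => by unfold two; split_ifs; exacts [one_pos, hq]) fun m hm j hj => by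
    simp [two, hm, hj]

theorem axis [CharZero K] {δ : Fin n → Fin n → K} {q : ℝ} (hq : 1 < q) {k : ℕ}
    {μ : Fin n → AlgebraicClosure K} (hμ : Pt D δ (two i₀ 1 q) (pw v k) μ) (h : μ i₀ ≠ 0) :
    ∃ (k : ℕ) (ν : Fin n → AlgebraicClosure K), Pt D δ (two i₀ 1 q) (pw v k) ν ∧ ν i₀ ≠ 0 ∧
      ∀ j ≠ i₀, ν j = 0 := by
  by_cases hr : ∃ A B : ℕ, 0 < B ∧ q * B = A
  · obtain ⟨A, B, h1, h2⟩ := hr
    have h3 : B < A := by
      have : (0 : ℝ) < B := Nat.cast_pos.2 h1
      exact_mod_cast (show (B : ℝ) < A by nlinarith)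
    obtain ⟨s, hs⟩ := IsAlgClosed.exists_pow_nat_eq (-2 : AlgebraicClosure K) (h1.trans h3)
    haveI : CharZero (AlgebraicClosure K) := algebraRat.charZero _
    refine ⟨_, _, (hμ.add hμ).add (hμ.scale (two i₀ (s ^ B) (s ^ A)) fun l l' e => ?_),
      fun e => ?_, fun j hj => ?_⟩
    · rw [wt_two, wt_two] at e
      simp only [pr_two, ← pow_mul, ← pow_add]
      congr 1
      exact_mod_cast (show (B : ℝ) * l.count i₀ + A * cB i₀ l = B * l'.count i₀ + A * cB i₀ l' by
        rw [← h2]; linear_combination B * e)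
    · have h4 : s ^ B = -2 := by
        simp only [Pi.add_apply, Pi.mul_apply, two, if_true] at e
        exact mul_right_cancel₀ h (by linear_combination e)
      have h5 : ((-2 : ℤ) : AlgebraicClosure K) ^ A = ((-2 : ℤ) : AlgebraicClosure K) ^ B := by
        push_cast
        rw [← h4, ← pow_mul, mul_comm, pow_mul, hs, h4]
      have h6 : (-2 : ℤ) ^ A = (-2) ^ B := by exact_mod_cast h5
      have h7 := congrArg Int.natAbs h6
      simp only [Int.natAbs_pow] at h7
      exact h3.ne' (Nat.pow_right_injective le_rfl h7)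
    · simp only [Pi.add_apply, Pi.mul_apply, two, if_neg hj, hs]
      ring
  · refine ⟨_, _, hμ.scale (two i₀ 1 0) fun l l' e => ?_, by simpa [two], fun j hj => by
      simp [two, hj]⟩
    have key : ∀ l l', wt (two i₀ 1 q) l = wt (two i₀ 1 q) l' → cB i₀ l ≤ cB i₀ l' := fun l l' e =>
      not_lt.1 fun h1 => by
        rw [wt_two, wt_two] at e
        have h2 : (cB i₀ l' : ℝ) < cB i₀ l := Nat.cast_lt.2 h1
        have h3 : l.count i₀ ≤ l'.count i₀ := by
          exact_mod_cast (show (l.count i₀ : ℝ) ≤ l'.count i₀ by nlinarith)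
        refine hr ⟨l'.count i₀ - l.count i₀, cB i₀ l - cB i₀ l', Nat.sub_pos_of_lt h1, ?_⟩
        rw [Nat.cast_sub h1.le, Nat.cast_sub h3]
        linear_combination e
    rw [pr_two, pr_two, one_pow, one_pow, (key l l' e).antisymm (key l' l e.symm)]

theorem std_of_axis {L : Type} [Field L] [Algebra K L] {δ : σ → Fin n → K} {ω : σ → ℝ} {j : σ}
    (hp : 0 < ω j) {ν : σ → L} (hν : Pt D δ ω x ν) (h1 : ν j ≠ 0) (h2 : ∀ i ≠ j, ν i = 0)
    (ω' : σ → Λ) (m : ℕ) : Std D δ (lx ω ω') x (List.replicate m j) := fun h => by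
  obtain ⟨φ, hφ⟩ := hν (wt ω (List.replicate m j))
  have h3 := ((hφ _).2 rfl).symm.trans (low_kill (fun l hl => ?_) h)
  · rw [pr, List.map_replicate, List.prod_replicate] at h3
    exact pow_ne_zero m h1 h3
  · rcases wt_lx_lt.1 hl with e | ⟨e, e'⟩
    · exact (hφ l).1 e
    · rw [(hφ l).2 e]
      by_contra h4
      have h5 : l = List.replicate l.length j := List.eq_replicate_iff.2 ⟨rfl, fun i hi =>
        by_contra fun h => h4 (List.prod_eq_zero (List.mem_map.2 ⟨i, hi, h2 i h⟩))⟩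
      rw [h5, wt_replicate, wt_replicate, nsmul_eq_mul, nsmul_eq_mul, mul_left_inj' hp.ne',
        Nat.cast_inj] at e
      exact e'.ne (by rw [h5, e])

theorem uniform [CharZero K] [Fintype σ] {δ : σ → Fin n → K} {ω : σ → Λ} (hC : Cp D δ ω)
    (hI : Inj ω) (hs : ∀ b, ∃ a : σ → K, ∑ i, a i • δ i = b) {q : ℕ}
    (hq : ∀ l l', wt ω l ≤ wt ω l' → l.length ≤ q * l'.length) (hv : v ≠ 0) {a k p : ℕ}
    (h1 : Big D (pw v a) p) (h2 : ∀ k, Small D (pw v k) p) {j : σ}
    (h : ∀ m, Std D δ ω (pw v k) (List.replicate m j)) (m : ℕ) :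
    Std D δ ω (pw v a) (List.replicate m j) := by
  classical
  obtain ⟨T, h3, h4⟩ : ∃ T, Full D δ ω (pw v a) T ∧ p ≤ T.card := by
    cases p with
    | zero => exact ⟨∅, fun l hl => List.eq_nil_iff_forall_not_mem.2
        (fun j hj => Finset.notMem_empty j (hl j hj)) ▸ std_nil hC.pos (pw_ne_zero hv a), le_rfl⟩
    | succ p =>
      by_contra hc
      exact (h1.le (small_of_full hC hs hq fun T hT =>
        Nat.le_of_lt_succ (not_le.1 fun h => hc ⟨T, hT, h⟩))).not_gt p.lt_succ_self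
  have h5 := ((h3.insert hC hI h).big hI).le (h2 _)
  refine h3 _ fun i hi => List.eq_of_mem_replicate hi ▸ by_contra fun hj => ?_
  rw [Finset.card_insert_of_notMem hj] at h5
  omega

theorem FV_of_gg [CharZero K] (hv : v ≠ 0) {a p : ℕ} (h1 : Big D (pw v (a + 1)) p)
    (h2 : ∀ k, Small D (pw v k) p) (hb : b i₀ = 1) (hg : b ∈ gg D v) : v ∈ FV D b I := by
  obtain ⟨τ, hτ⟩ := exists_inj (Fin n)
  let δ := Function.update (E K n) i₀ b
  have hs : ∀ c, ∃ a : Fin n → K, ∑ i, a i • δ i = c := fun c => ⟨_, upd_span hb c⟩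
  have h3 : ∀ q ≥ (1 : ℝ), ∃ N, ¬ Std D δ (two i₀ 1 q) (pw v (a + 1)) (List.replicate N i₀) := by
    by_contra hc
    let S := {q : ℝ | 1 ≤ q} ∩
      {q | ∃ N, ¬ Std D δ (two i₀ 1 q) (pw v (a + 1)) (List.replicate N i₀)}ᶜ
    have hS : IsClosed S := by
      refine isClosed_Ici.inter (IsOpen.isClosed_compl (isOpen_iff_mem_nhds.2 ?_))
      rintro q ⟨N, hN⟩
      obtain ⟨T, k1, k2⟩ := Submodule.mem_span_finite_of_mem_span (not_not.1 hN)
      have k3 : ∀ y ∈ T, ∀ᶠ q' in 𝓝 q, y ∈ Low D δ (two i₀ 1 q') (pw v (a + 1))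
          (wt (two i₀ 1 q') (List.replicate N i₀)) := fun y hy => by
        obtain ⟨l, k4, rfl⟩ := k1 hy
        refine (ContinuousAt.eventually_lt (f := fun q => wt (two i₀ 1 q) l) ?_ ?_ k4).mono
          fun _ => wd_mem_low <;> simp only [wt_two] <;> fun_prop
      exact ((eventually_all_finset T).2 k3).mono fun q hq =>
        ⟨N, not_not.2 (Submodule.span_le.2 hq k2)⟩
    have hb' : BddBelow S := ⟨1, fun _ h => h.1⟩
    obtain ⟨k1, k2⟩ := hS.csInf_mem (by
      push Not at hc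
      obtain ⟨q, k1, k2⟩ := hc
      exact ⟨q, k1, fun ⟨N, hN⟩ => hN (k2 N)⟩) hb'
    have k3 : ∀ q < sInf S, q ∉ S := fun q hq => notMem_of_lt_csInf hq hb'
    generalize sInf S = q₀ at k1 k2 k3
    have k4 : 1 < q₀ := lt_of_le_of_ne k1 fun e => k2 (by
      rw [← e, mem_setOf_eq, two_one]
      exact exists_nstd hs (Fintype.card_fin n) (by rwa [show δ i₀ = b from
        Function.update_self ..]) _)
    have hC := cp_two (D := D) hb (one_pos.trans k4)
    obtain ⟨μ, k5⟩ := not_forall.1 fun H =>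
      k2 ((exists_pow (L := AlgebraicClosure K) (j := i₀) hC H).imp fun N hN =>
        not_not.2 (wt_replicate (two i₀ 1 q₀) i₀ N ▸ hN))
    obtain ⟨k, ν, k6, k7, k8⟩ := axis k4 (Classical.not_imp.1 k5).1 (Classical.not_imp.1 k5).2
    have hI := (hτ.lx (two i₀ (1 : ℝ) 0)).lx (two i₀ 1 q₀)
    have k9 := uniform (hC.lx _) hI hs (q := ⌈q₀⌉₊) (fun l l' e => by
      have e1 := wt_lx_le e
      have e2 := Nat.le_ceil q₀
      rw [wt_two, wt_two] at e1
      rw [← Nat.cast_le (α := ℝ), Nat.cast_mul, length_eq i₀, length_eq i₀]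
      have := (l.count i₀).cast_nonneg (α := ℝ)
      have := (l'.count i₀).cast_nonneg (α := ℝ)
      have := (cB i₀ l).cast_nonneg (α := ℝ)
      have := (cB i₀ l').cast_nonneg (α := ℝ)
      nlinarith) hv h1 h2 (std_of_axis (hC.pos i₀) k6 k7 k8 _)
    have k10 : ∀ᶠ q in 𝓝[<] q₀, 1 < q := nhdsWithin_le_nhds (lt_mem_nhds k4)
    refine ((transfer (x := pw v (a + 1)) (F := 𝓝[<] q₀) (hC.lx _) hI
      (w := fun q => two i₀ 1 q) (k10.mono fun q hq => cp_two hb (one_pos.trans hq))
      fun l l' e => ?_).and (k10.and self_mem_nhdsWithin)).exists.elim fun q ⟨e1, e2, e3⟩ =>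
        k3 q e3 ⟨e2.le, fun ⟨N, hN⟩ => hN (e1 _ (k9 N))⟩
    · rcases wt_lx_lt.1 e with e | ⟨e, e'⟩
      · refine ((ContinuousAt.eventually_lt (f := fun q => wt (two i₀ 1 q) l)
          (g := fun q => wt (two i₀ 1 q) l') ?_ ?_ e).filter_mono nhdsWithin_le_nhds).mono
          fun _ => le_of_lt <;>
          simp only [wt_two] <;> fun_prop
      · have e1 := wt_lx_le e'.le
        refine eventually_of_mem self_mem_nhdsWithin fun q (hq : q < q₀) => ?_
        simp only [wt_two] at e e1 ⊢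
        have : (cB i₀ l' : ℝ) ≤ cB i₀ l := by nlinarith
        nlinarith
  have hC : Cp D δ (lx (two i₀ (0 : ℝ) 1) (lx (fun _ => (1 : ℝ)) τ)) :=
    cp_upd hb (fun i => Prod.Lex.toLex_lt_toLex.2 (by
      by_cases h : i = i₀
      · exact Or.inr ⟨(if_pos h).symm, Prod.Lex.toLex_lt_toLex.2 (Or.inl one_pos)⟩
      · exact Or.inl (by simp [two, h]))) fun m hm j hj => Prod.Lex.toLex_lt_toLex.2
      (Or.inr ⟨show two i₀ (0 : ℝ) 1 m = two i₀ 0 1 i₀ + two i₀ 0 1 j by simp [two, hm, hj], Prod.Lex.toLex_lt_toLex.2 (Or.inl (lt_add_one (1 : ℝ)))⟩)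
  refine ((transfer (x := pw v (a + 1)) (F := atTop) hC ((hτ.lx _).lx _)
    (w := fun q : ℝ => two i₀ 1 q) ((eventually_gt_atTop 0).mono fun q hq => cp_two hb hq)
    fun l l' e => ?_).and (eventually_ge_atTop 1)).exists.elim fun q ⟨e1, e2⟩ => ?_
  swap
  · obtain ⟨N, hN⟩ := h3 q e2
    refine FV_of_pw hv (k := a) (FV_of_rel (m := N) ?_)
    have e3 : ∀ m, wd D δ (List.replicate m i₀) (pw v (a + 1)) = (ac D b)^[m] (pw v (a + 1)) :=
      fun m => by rw [wd_replicate, show δ i₀ = b from Function.update_self ..]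
    refine e3 N ▸ Submodule.span_mono ?_ (not_not.1 fun h => hN (e1 _ h))
    rintro _ ⟨l, e4, rfl⟩
    have e5 := wt_lx_le e4.le
    have e6 : l = List.replicate l.length i₀ := List.eq_replicate_iff.2 ⟨rfl, fun i hi => by
      simp only [wt_two, wt_replicate, two, if_true, smul_zero, mul_zero, zero_add, mul_one] at e5
      simpa using List.countP_eq_zero.1 (Nat.cast_nonpos.1 e5) i hi⟩
    refine ⟨l.length, ?_, by rw [← e3, ← e6]⟩
    rw [e6, wt_replicate, wt_replicate] at e4
    exact (nsmul_lt_nsmul_iff_left (hC.pos i₀)).1 e4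
  · refine (eventually_ge_atTop (l.count i₀ : ℝ)).mono fun q hq => ?_
    have := (l.count i₀).cast_nonneg (α := ℝ)
    have := (l'.count i₀).cast_nonneg (α := ℝ)
    rcases wt_lx_lt.1 e with e | ⟨e, e'⟩
    · simp only [wt_two, mul_zero, zero_add, mul_one, Nat.cast_lt] at e ⊢
      have : (cB i₀ l : ℝ) + 1 ≤ cB i₀ l' := by exact_mod_cast e
      nlinarith
    · have e1 := wt_lx_le e'.le
      simp only [wt_two, wt_one, length_eq i₀, mul_zero, zero_add, mul_one] at e e1 ⊢
      rw [e] at e1 ⊢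
      linarith

theorem ech_zero {d p : ℕ} (e : Fin d ⊕ Fin p ≃ Fin n) (B : Fin d → Fin p → K) {U : Set (Fin n → K)}
    (h : ∀ b ∈ U, ∀ m, b (e (.inr m)) = ∑ l, b (e (.inl l)) * B l m) (c : Fin p → K)
    (hc : ∑ m, c m • E K n (e (.inr m)) ∈ U) : c = 0 := funext fun m => by
  simpa [E, Pi.single_apply, Finset.sum_apply] using h _ hc m

theorem FV_of_mem_gg [CharZero K] (hv : v ≠ 0) (hg : b ∈ gg D v) : v ∈ FV D b I := by
  by_cases hb : b = 0
  · refine FV_of_rel (m := 1) ?_
    rw [hb, Function.iterate_one, ← acx_apply, map_zero]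
    exact Submodule.zero_mem _
  obtain ⟨i₀, hi⟩ := Function.ne_iff.1 hb
  obtain ⟨d, p, e, B, h1, h2⟩ := ech (gg D v)
  obtain ⟨a, ha⟩ := exists_indep hv _ (ech_zero e B h2)
  have := FV_smul (b i₀) (FV_of_gg hv (big_of_indep _ ha) (small_of_ech e B h1)
    (inv_mul_cancel₀ hi) ((gg D v).smul_mem (b i₀)⁻¹ hg))
  rwa [smul_inv_smul₀ hi] at this

end Vale.Agent.P284Z.DA

namespace Vale.Agent.P284Z
open DA

theorem stB : StB := by
  intro K _ _ n D ι v hv
  obtain ⟨d, p, e, B, h1, h2⟩ := ech (gg D v)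
  have h3 := fun l => FV_of_mem_gg hv (h1 l)
  obtain ⟨ρ, S, h4, h5, h6⟩ := exists_basis (leafVF e B) (fun l l' => funext fun i => by
    obtain ⟨i, rfl⟩ := e.surjective i
    cases i with
    | inl k => exact br_leaf e B l l' k
    | inr m => simpa [br_leaf] using h2 _ (br_mem (h3 l) (h3 l')) m) h3
  obtain ⟨a, ha⟩ := exists_indep (D := D) (wg_ne_zero h4) _ fun c hc => ech_zero e B h2 c
    (mem_gg (Submodule.span_le.2 (range_subset_iff.2
      (FV_of_wg h4 (FV_of_mem_gg (wg_ne_zero h4) hc))) h5))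
  refine ⟨d, p, e, B, ρ, S, _, a + 1, fun t i => wd_apply D _ _ _ _, h4, h5, h6,
    fun b hb => h2 b (mem_gg (finOn_iff.1 hb)), a.succ_pos, fun j => ?_⟩
  convert ha.comp (fun α : Idx p j => α.1) Subtype.val_injective using 2 with α
  funext i
  rw [Function.comp_apply, wd_apply D (E K n)]
  simp only [E, vf_single]
  rfl

end Vale.Agent.P284Z
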