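import Vale.Agent.P284Z.B.Defs

/-!
# P284Z, block B: finite vectors, echelon form, descent, wedge
-/

set_option linter.all false

open Set

noncomputable section

namespace Vale.Agent.P284Z.DA

variable {K : Type} [Field K] {n : ℕ} {D : Der K n} {I I' σ : Type} {a b : Fin n → K} {x : I → K}

theorem iter_mem {F : Submodule K (I → K)} (h : ∀ y ∈ F, ac D b y ∈ F) (hx : x ∈ F) (k : ℕ) :
    (ac D b)^[k] x ∈ F := by
  induction k with
  | zero => exact hx
  | succ k ih => rw [Function.iterate_succ_apply']; exact h _ ih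

theorem finOn_iff : D.FinOn b x ↔ x ∈ FV D b I := by
  have e : (fun k : ℕ => fun i => (D.vf b)^[k] (x i)) = fun k => (ac D b)^[k] x := funext fun k => by
    induction k with
    | zero => rfl
    | succ k ih =>
      rw [Function.iterate_succ_apply', ← ih]
      exact funext fun i => Function.iterate_succ_apply' _ _ _
  rw [Der.FinOn, e, Module.Finite.iff_fg]
  refine ⟨fun h => ⟨_, h, Submodule.subset_span ⟨0, rfl⟩, fun y hy =>
    ac_span D Submodule.subset_span ?_ hy⟩, fun ⟨F, h1, h2, h3⟩ => h1.of_le ?_⟩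
  · rintro _ ⟨k, rfl⟩
    exact Submodule.subset_span ⟨k + 1, Function.iterate_succ_apply' _ _ _⟩
  · rw [Submodule.span_le]
    rintro _ ⟨k, rfl⟩
    exact iter_mem h3 h2 k

theorem FV_smul (c : K) (h : x ∈ FV D b I) : x ∈ FV D (c • b) I := by
  obtain ⟨F, h1, h2, h3⟩ := h
  refine ⟨F, h1, h2, fun y hy => ?_⟩
  rw [← acx_apply, map_smul]
  exact F.smul_mem c (h3 y hy)

theorem FV_comp (h : x ∈ FV D b I) (r : I' → I) : x ∘ r ∈ FV D b I' := by
  obtain ⟨F, h1, h2, h3⟩ := h
  refine ⟨F.map (LinearMap.funLeft K K r), h1.map _, ⟨x, h2, rfl⟩, ?_⟩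
  rintro _ ⟨y, hy, rfl⟩
  exact ⟨_, h3 y hy, rfl⟩

/-- local finiteness -/
theorem FV_ac (h : x ∈ FV D b I) (a : Fin n → K) : ac D a x ∈ FV D b I := by
  obtain ⟨F, ⟨s, rfl⟩, h2, h3⟩ := h
  let t : Set (I → K) := s ∪ range fun p : s × Fin n => ac D (Pi.single p.2 1) p.1.1
  have h4 : (s : Set (I → K)) ⊆ Submodule.span K t := fun y hy => Submodule.subset_span (Or.inl hy)
  have h5 : ∀ c, ∀ y ∈ Submodule.span K (s : Set (I → K)), ac D c y ∈ Submodule.span K t :=
    fun c y hy => ac_span D h4 (fun f hf => by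
      rw [← acx_apply, pi_eq_sum_univ' c, map_sum]
      refine Submodule.sum_mem _ fun i _ => ?_
      rw [map_smul]
      exact Submodule.smul_mem _ _ (Submodule.subset_span (Or.inr ⟨(⟨f, hf⟩, i), rfl⟩))) hy
  refine ⟨Submodule.span K t, Submodule.fg_span (s.finite_toSet.union (finite_range _)), h5 a x h2,
    fun y hy => ac_span D Submodule.subset_span ?_ hy⟩
  rintro y (hy | ⟨⟨f, i⟩, rfl⟩)
  · exact h5 b y (Submodule.subset_span hy)
  · have h6 : f.1 ∈ Submodule.span K (s : Set (I → K)) := Submodule.subset_span f.2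
    rw [eq_add_of_sub_eq (ac_br D b (Pi.single i 1) f.1)]
    exact Submodule.add_mem _ (h5 _ _ h6) (h5 _ _ (h3 _ h6))

theorem FV_wd (h : x ∈ FV D b I) (δ : σ → Fin n → K) (l : List σ) : wd D δ l x ∈ FV D b I := by
  induction l with
  | nil => exact h
  | cons j l ih => exact FV_ac ih _

theorem FV_of_rel {m : ℕ} (h : (ac D b)^[m] x ∈ Submodule.span K {y | ∃ i < m, y = (ac D b)^[i] x}) :
    x ∈ FV D b I := by
  have h1 : ∀ i ≤ m, (ac D b)^[i] x ∈ Submodule.span K {y | ∃ i < m, y = (ac D b)^[i] x} :=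
    fun i hi => by
      rcases hi.lt_or_eq with hi | rfl
      · exact Submodule.subset_span ⟨i, hi, rfl⟩
      · exact h
  refine ⟨_, Submodule.fg_span ?_, h1 0 (Nat.zero_le m), fun y hy =>
    ac_span D Submodule.subset_span ?_ hy⟩
  · refine ((finite_Iio m).image fun i => (ac D b)^[i] x).subset ?_
    rintro _ ⟨i, hi, rfl⟩
    exact ⟨i, hi, rfl⟩
  · rintro _ ⟨i, hi, rfl⟩
    rw [← Function.iterate_succ_apply' (ac D b)]
    exact h1 _ hi

theorem FV_tn (h : x ∈ FV D b I) {y : I' → K} (h' : y ∈ FV D b I') : tn x y ∈ FV D b (I × I') := by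
  obtain ⟨F, h1, h2, h3⟩ := h
  obtain ⟨G, k1, k2, k3⟩ := h'
  refine ⟨Submodule.map₂ tn F G, h1.map₂ _ k1, Submodule.apply_mem_map₂ _ h2 k2, fun z hz => ?_⟩
  rw [Submodule.map₂_eq_span_image2] at hz
  refine ac_span D ?_ ?_ hz
  · rintro _ ⟨u, hu, v, hv, rfl⟩
    exact Submodule.apply_mem_map₂ _ hu hv
  · rintro _ ⟨u, hu, v, hv, rfl⟩
    rw [ac_tn]
    exact Submodule.add_mem _ (Submodule.apply_mem_map₂ _ (h3 u hu) hv)
      (Submodule.apply_mem_map₂ _ hu (k3 v hv))

theorem FV_pw (h : x ∈ FV D b I) (k : ℕ) : pw x k ∈ FV D b (Fin k → I) := by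
  induction k with
  | zero =>
    refine FV_of_rel (m := 1) ?_
    have : (ac D b)^[1] (pw x 0) = 0 := funext fun i => by
      rw [Function.iterate_one, ac_apply, pw, Fin.prod_univ_zero, vf_one, Pi.zero_apply]
    rw [this]
    exact Submodule.zero_mem _
  | succ k ih =>
    have : pw x (k + 1) = tn x (pw x k) ∘ fun i : Fin (k + 1) → I => (i 0, Fin.tail i) :=
      funext fun i => Fin.prod_univ_succ _
    rw [this]
    exact FV_comp (FV_tn h ih) _

theorem FV_of_pw (hx : x ≠ 0) {k : ℕ} (h : pw x (k + 1) ∈ FV D b (Fin (k + 1) → I)) :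
    x ∈ FV D b I := by
  obtain ⟨i, hi⟩ := Function.ne_iff.1 hx
  have h1 := FV_comp h fun j : I => (Fin.cons j fun _ => i : Fin (k + 1) → I)
  have h2 : (pw x (k + 1) ∘ fun j : I => (Fin.cons j fun _ => i : Fin (k + 1) → I)) =
      x i ^ k • x := funext fun j => by
    simp [pw, Fin.prod_univ_succ, mul_comm]
  rw [h2] at h1
  exact (Submodule.smul_mem_iff _ (pow_ne_zero k hi)).1 h1

variable (D) in
/-- the span of the orbit of a subspace -/
def orb (b : Fin n → K) (G : Submodule K (I → K)) : Submodule K (I → K) :=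
  Submodule.span K {y | ∃ i, ∃ g ∈ G, y = (ac D b)^[i] g}

theorem mem_orb {G : Submodule K (I → K)} (h : x ∈ G) (i : ℕ) : (ac D b)^[i] x ∈ orb D b G :=
  Submodule.subset_span ⟨i, x, h, rfl⟩

theorem orb_fg {G : Submodule K (I → K)} (h : G.FG) (h' : G ≤ FV D b I) : (orb D b G).FG := by
  obtain ⟨s, rfl⟩ := h
  choose F h1 h2 h3 using fun y : s => h' (Submodule.subset_span y.2)
  have h4 : ∀ y ∈ ⨆ i, F i, ac D b y ∈ ⨆ i, F i := fun y hy =>
    Submodule.iSup_induction (motive := fun y => ac D b y ∈ ⨆ i, F i) F hy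
      (fun i y hy => Submodule.mem_iSup_of_mem i (h3 i y hy))
      (by rw [map_zero]; exact Submodule.zero_mem _)
      fun y z hy hz => by rw [map_add]; exact Submodule.add_mem _ hy hz
  refine (Submodule.fg_iSup F h1).of_le (Submodule.span_le.2 ?_)
  rintro _ ⟨i, g, hg, rfl⟩
  exact iter_mem h4 (Submodule.span_le.2 (fun y hy => Submodule.mem_iSup_of_mem (p := F) ⟨y, hy⟩
    (h2 ⟨y, hy⟩)) hg) i

theorem orb_le {G : Submodule K (I → K)} (h : G ≤ FV D a I) : orb D b G ≤ FV D a I := by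
  refine Submodule.span_le.2 ?_
  rintro _ ⟨i, g, hg, rfl⟩
  exact iter_mem (fun y hy => FV_ac hy b) (h hg) i

theorem fg_three (ha : x ∈ FV D a I) (hb : x ∈ FV D b I) : ∃ F : Submodule K (I → K), F.FG ∧
    ∀ i m j, (ac D a)^[i] ((ac D b)^[m] ((ac D a)^[j] x)) ∈ F := by
  have h1 := (Submodule.span_singleton_le_iff_mem _ _).2 ha
  have h2 := (Submodule.span_singleton_le_iff_mem _ _).2 hb
  exact ⟨orb D a (orb D b (orb D a (K ∙ x))),
    orb_fg (orb_fg (orb_fg (Submodule.fg_span_singleton x) h1) (orb_le h2)) (orb_le (orb_le h1)),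
    fun i m j => mem_orb (mem_orb (mem_orb (Submodule.mem_span_singleton_self x) j) m) i⟩

theorem exists_basis {d : ℕ} (X : Fin d → Fin n → K) (hc : ∀ l l', br D (X l) (X l') = 0)
    (h : ∀ l, x ∈ FV D (X l) I) : ∃ (ρ : ℕ) (S : Fin ρ → List (Fin d)),
      LinearIndependent K (fun t => wd D X (S t) x) ∧
      x ∈ Submodule.span K (range fun t => wd D X (S t) x) ∧
      ∀ l t, ac D (X l) (wd D X (S t) x) ∈ Submodule.span K (range fun t => wd D X (S t) x) := by
  have h1 : ∀ l j, Function.Commute (ac D (X l) : (I → K) → I → K) (ac D (X j)) := fun l j y =>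
    sub_eq_zero.1 (by rw [ac_br, hc, ← acx_apply, map_zero])
  have h2 : ∀ s : Finset (Fin d), ∃ G : Submodule K (I → K), G.FG ∧ x ∈ G ∧
      (∀ l, G ≤ FV D (X l) I) ∧ ∀ l ∈ s, ∀ y ∈ G, ac D (X l) y ∈ G := fun s => by
    induction s using Finset.induction_on with
    | empty =>
      exact ⟨K ∙ x, Submodule.fg_span_singleton x, Submodule.mem_span_singleton_self x,
        fun l => (Submodule.span_singleton_le_iff_mem _ _).2 (h l), fun l hl => absurd hl (by simp)⟩
    | insert j s _ ih =>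
      obtain ⟨G, k1, k2, k3, k4⟩ := ih
      refine ⟨orb D (X j) G, orb_fg k1 (k3 j), mem_orb k2 0, fun l => orb_le (k3 l),
        fun l hl y hy => ac_span D Submodule.subset_span ?_ hy⟩
      rintro _ ⟨i, g, hg, rfl⟩
      rcases Finset.mem_insert.1 hl with rfl | hl
      · rw [← Function.iterate_succ_apply' (ac D (X l))]
        exact mem_orb hg _
      · rw [((h1 l j).iterate_right i).eq]
        exact mem_orb (k4 l hl g hg) i
  obtain ⟨G, ⟨s, rfl⟩, k2, -, k4⟩ := h2 Finset.univ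
  have h3 : ∀ l, wd D X l x ∈ Submodule.span K (s : Set (I → K)) := fun l => by
    induction l with
    | nil => exact k2
    | cons j l ih => exact k4 j (Finset.mem_univ j) _ ih
  obtain ⟨κ, S, -, h4, h5⟩ := exists_linearIndependent' K fun l => wd D X l x
  have : Finite κ := h5.finite_of_le_span_finite _ (s : Set (I → K)) (by
    rintro _ ⟨t, rfl⟩
    exact h3 _)
  obtain ⟨ρ, ⟨e⟩⟩ := Finite.exists_equiv_fin κ
  have h6 : (range fun t => wd D X (S (e.symm t)) x) = range ((fun l => wd D X l x) ∘ S) :=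
    e.symm.surjective.range_comp ((fun l => wd D X l x) ∘ S)
  refine ⟨ρ, fun t => S (e.symm t), h5.comp _ e.symm.injective, ?_, fun l t => ?_⟩
  · rw [h6, h4]
    exact Submodule.subset_span ⟨[], rfl⟩
  · rw [h6, h4]
    exact Submodule.subset_span ⟨l :: S (e.symm t), rfl⟩

/-- echelon form -/
theorem ech (U : Submodule K (Fin n → K)) : ∃ (d p : ℕ) (e : Fin d ⊕ Fin p ≃ Fin n)
    (B : Fin d → Fin p → K), (∀ l, leafVF e B l ∈ U) ∧
      ∀ b ∈ U, ∀ m, b (e (.inr m)) = ∑ l, b (e (.inl l)) * B l m := by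
  classical
  obtain ⟨P, h1, h2⟩ := exists_minimal_of_wellFoundedLT
    (fun P : Finset (Fin n) => ∀ b ∈ U, (∀ i ∈ P, b i = 0) → b = 0)
    ⟨Finset.univ, fun b _ h => funext fun i => h i (Finset.mem_univ i)⟩
  have h3 : ∀ j ∈ P, ∃ u ∈ U, ∀ i ∈ P, u i = if i = j then 1 else 0 := fun j hj => by
    have h4 : ¬ ∀ b ∈ U, (∀ i ∈ P.erase j, b i = 0) → b = 0 := fun h =>
      P.notMem_erase j (h2 h (P.erase_subset j) hj)
    push Not at h4
    obtain ⟨u, hu, h5, h6⟩ := h4
    have h7 : u j ≠ 0 := fun h => h6 (h1 u hu fun i hi => by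
      by_cases e : i = j
      · rw [e, h]
      · exact h5 i (Finset.mem_erase.2 ⟨e, hi⟩))
    refine ⟨(u j)⁻¹ • u, U.smul_mem _ hu, fun i hi => ?_⟩
    rw [Pi.smul_apply, smul_eq_mul]
    split_ifs with e
    · rw [e, inv_mul_cancel₀ h7]
    · rw [h5 i (Finset.mem_erase.2 ⟨e, hi⟩), mul_zero]
  choose! u hu1 hu2 using h3
  let e := finSumEquivOfFinset (s := P) rfl rfl
  have h4 : ∀ l, e (.inl l) ∈ P := fun l => P.orderEmbOfFin_mem rfl l
  have h5 : ∀ l l', u (e (.inl l)) (e (.inl l')) = if l' = l then 1 else 0 := fun l l' => by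
    rw [hu2 _ (h4 l) _ (h4 l')]
    exact if_congr (e.injective.eq_iff.trans Sum.inl_injective.eq_iff) rfl rfl
  refine ⟨_, _, e, fun l m => u (e (.inl l)) (e (.inr m)), fun l => ?_, fun b hb m => ?_⟩
  · have : leafVF e (fun l m => u (e (.inl l)) (e (.inr m))) l = u (e (.inl l)) := funext fun i => by
      obtain ⟨i, rfl⟩ := e.surjective i
      rw [leafVF, e.symm_apply_apply]
      rcases i with i | i
      · exact (h5 l i).symm
      · rfl
    rw [this]
    exact hu1 _ (h4 l)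
  · have h6 := h1 (b - ∑ l, b (e (.inl l)) • u (e (.inl l)))
      (U.sub_mem hb (U.sum_mem fun l _ => U.smul_mem _ (hu1 _ (h4 l)))) fun i hi => by
        obtain ⟨i, rfl⟩ := e.surjective i
        rcases i with i | i
        · simp [Finset.sum_apply, h5]
        · exact absurd hi (Finset.mem_compl.1 (Pᶜ.orderEmbOfFin_mem rfl i))
    have h7 := congrFun (sub_eq_zero.1 h6) (e (.inr m))
    simpa only [Finset.sum_apply, Pi.smul_apply, smul_eq_mul] using h7

theorem br_leaf {d p : ℕ} (e : Fin d ⊕ Fin p ≃ Fin n) (B : Fin d → Fin p → K) (l l' k : Fin d) :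
    br D (leafVF e B l) (leafVF e B l') (e (.inl k)) = 0 := by
  have h : ∀ c j, D.vf c (leafVF e B j (e (.inl k))) = 0 := fun c j => by
    rw [leafVF, e.symm_apply_apply, Sum.elim_inl]
    split_ifs
    exacts [vf_one D c, vf_zero D c]
  rw [br, h, h, sub_zero]

/-- Galois descent -/
theorem descent [CharZero K] {P : Type} [Fintype P] (U : Submodule (AlgebraicClosure K)
    (P → AlgebraicClosure K)) (hU : ∀ (τ : AlgebraicClosure K ≃ₐ[K] AlgebraicClosure K), ∀ c ∈ U,
      (fun i => τ (c i)) ∈ U) (h : U ≠ ⊥) :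
    ∃ b : P → K, b ≠ 0 ∧ (fun i => algebraMap K (AlgebraicClosure K) (b i)) ∈ U := by
  classical
  obtain ⟨c₀, k1, k2⟩ := (Submodule.ne_bot_iff U).1 h
  obtain ⟨Z, ⟨c, h1, h2, h3⟩, h4⟩ := exists_minimal_of_wellFoundedLT
    (fun Z : Finset P => ∃ c ∈ U, c ≠ 0 ∧ ∀ i ∉ Z, c i = 0)
    ⟨Finset.univ, c₀, k1, k2, fun i hi => absurd (Finset.mem_univ i) hi⟩
  obtain ⟨j, hj⟩ := Function.ne_iff.1 h2
  have h5 : (c j)⁻¹ • c ∈ U := U.smul_mem _ h1
  have h6 : ((c j)⁻¹ • c) j = 1 := inv_mul_cancel₀ hj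
  have h7 : ∀ i ∉ Z, ((c j)⁻¹ • c) i = 0 := fun i hi => by
    rw [Pi.smul_apply, h3 i hi, smul_zero]
  generalize (c j)⁻¹ • c = v at h5 h6 h7
  have h8 : ∀ i, v i ∈ range (algebraMap K (AlgebraicClosure K)) := fun i =>
    (InfiniteGalois.mem_range_algebraMap_iff_fixed (v i)).2 fun τ => by
      by_contra h9
      refine Z.notMem_erase j (h4 ⟨_, U.sub_mem (hU τ v h5) h5, Function.ne_iff.2
        ⟨i, sub_ne_zero.2 h9⟩, fun k hk => ?_⟩ (Z.erase_subset j)
        (by_contra fun e => hj (h3 j e)))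
      by_cases e : k = j
      · rw [Pi.sub_apply, e, h6, map_one, sub_self]
      · rw [Pi.sub_apply, h7 k fun h => hk (Finset.mem_erase.2 ⟨e, h⟩), map_zero, sub_self]
  choose b hb using h8
  refine ⟨b, fun e => ?_, (funext hb).symm ▸ h5⟩
  have := hb j
  rw [e, Pi.zero_apply, map_zero, h6] at this
  exact zero_ne_one this

/-- the wedge product -/
def wg {ρ : ℕ} (w : Fin ρ → I → K) : (Fin ρ → I) → K :=
  fun i => (Matrix.of fun t t' => w t (i t')).det

theorem wg_ne_zero {ρ : ℕ} {w : Fin ρ → I → K} (hw : LinearIndependent K w) : wg w ≠ 0 := by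
  obtain ⟨κ, S, -, h4, h5⟩ := exists_linearIndependent' K fun (i : I) (t : Fin ρ) => w t i
  have h1 : Submodule.span K (range fun (i : I) (t : Fin ρ) => w t i) = ⊤ := by
    by_contra h
    obtain ⟨f, h2, h3⟩ := Submodule.exists_le_ker_of_lt_top _ (lt_top_iff_ne_top.2 h)
    have h6 := Fintype.linearIndependent_iff.1 hw (fun t => f (Pi.single t 1)) (funext fun i => by
      have h7 : f (fun t => w t i) = 0 := h3 (Submodule.subset_span ⟨i, rfl⟩)
      rw [pi_eq_sum_univ' fun t => w t i, map_sum] at h7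
      rw [Finset.sum_apply, Pi.zero_apply, ← h7]
      exact Finset.sum_congr rfl fun t _ => by
        rw [map_smul, Pi.smul_apply, smul_eq_mul, smul_eq_mul, mul_comm])
    exact h2 (LinearMap.pi_ext' fun t => LinearMap.ext_ring (h6 t))
  let e := (Module.Basis.mk h5 (h4.trans h1).ge).indexEquiv (Pi.basisFun K (Fin ρ))
  refine Function.ne_iff.2 ⟨fun t => S (e.symm t), ?_⟩
  exact ((Matrix.isUnit_iff_isUnit_det _).1 (Matrix.linearIndependent_cols_iff_isUnit.1
    (h5.comp _ e.symm.injective))).ne_zero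

theorem FV_of_wg {ρ : ℕ} {w : Fin ρ → I → K} (hw : LinearIndependent K w)
    (h : wg w ∈ FV D b (Fin ρ → I)) (t : Fin ρ) : w t ∈ FV D b I := by
  obtain ⟨i, hi⟩ := Function.ne_iff.1 (wg_ne_zero hw)
  have h1 : wg w i • w t = ∑ t', w t (i t') • wg w ∘ Function.update i t' := funext fun j => by
    have h2 := congrFun (Matrix.mulVec_cramer (Matrix.of fun t t' => w t (i t')) fun t => w t j) t
    rw [Matrix.mulVec, dotProduct] at h2
    rw [Finset.sum_apply]
    refine h2.symm.trans (Finset.sum_congr rfl fun t' _ => ?_)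
    refine congrArg (w t (i t') * ·) (congrArg Matrix.det (Matrix.ext fun r s => ?_))
    rw [Matrix.updateCol_apply, Matrix.of_apply, Matrix.of_apply, Function.update_apply]
    split_ifs <;> rfl
  refine (Submodule.smul_mem_iff _ hi).1 ?_
  rw [h1]
  exact Submodule.sum_mem _ fun t' _ => Submodule.smul_mem _ _ (FV_comp h _)

end Vale.Agent.P284Z.DA
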