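import Vale.Agent.P284Z.B.Grow
import Vale.Agent.P284Z.B.Fin

/-!
# P284Z, block B: the characteristic space for the order filtration
-/

set_option linter.all false

open Set Filter

noncomputable section

namespace Vale.Agent.P284Z.DA

variable {K : Type} [Field K] {n : ℕ} (D : Der K n) {I σ : Type}

/-- the coordinate fields -/
def E (K : Type) [Field K] (n : ℕ) : Fin n → Fin n → K := fun i => Pi.single i 1

/-- the vector fields whose symbols vanish at all the characteristic points -/
def gg (v : I → K) : Submodule K (Fin n → K) where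
  carrier := {b | ∀ (k : ℕ) (μ : Fin n → AlgebraicClosure K),
    Pt D (E K n) (fun _ => (1 : ℝ)) (pw v k) μ → ∑ i, b i • μ i = 0}
  add_mem' := fun ha hb k μ h => by
    simp only [Pi.add_apply, add_smul, Finset.sum_add_distrib, ha k μ h, hb k μ h, add_zero]
  zero_mem' := fun _ _ _ => by simp
  smul_mem' := fun c b hb k μ h => by
    simp only [Pi.smul_apply, smul_eq_mul, mul_smul, ← Finset.smul_sum, hb k μ h, smul_zero]

variable {D} {v x : I → K} {a b : Fin n → K} {δ : σ → Fin n → K}

theorem sum_E (b : Fin n → K) : ∑ i, b i • E K n i = b := (pi_eq_sum_univ' b).symm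

theorem cp_one [Fintype σ] (hs : ∀ b, ∃ a : σ → K, ∑ i, a i • δ i = b) :
    Cp D δ fun _ => (1 : ℝ) := ⟨fun _ => one_pos, fun i j => by
  obtain ⟨a, ha⟩ := hs (br D (δ i) (δ j))
  exact ha ▸ Submodule.sum_mem _ fun m _ => Submodule.smul_mem _ _
    (Submodule.subset_span ⟨m, lt_add_one (1 : ℝ), rfl⟩)⟩

theorem gr_ac {L : Type} [CommRing L] [Algebra K L] {μ : Fin n → L} {s : ℝ} (b : Fin n → K)
    {p : (I → K) × L} (hp : p ∈ Gr D (E K n) (fun _ => (1 : ℝ)) x μ s) :
    (ac D b p.1, (∑ i, b i • μ i) * p.2) ∈ Gr D (E K n) (fun _ => (1 : ℝ)) x μ (1 + s) := by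
  have h := gr_vf b hp
  rwa [sum_E] at h

theorem mem_gg (h : v ∈ FV D b I) : b ∈ gg D v := fun k μ hμ => by
  obtain ⟨F, h1, h2, h3⟩ := FV_pw h k
  obtain ⟨m, hm⟩ := hμ.rel (u := fun m => (ac D b)^[m] (pw v k))
    (c := fun m => (∑ i, b i • μ i) ^ m) (fun m => by
      induction m with
      | zero => rw [pow_zero]; exact wd_mem_gr (l := []) Nat.cast_zero.symm
      | succ m ih =>
        rw [Function.iterate_succ_apply', pow_succ', Nat.cast_succ, add_comm]
        exact gr_ac b ih) h1 fun m => by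
      induction m with
      | zero => exact h2
      | succ m ih => rw [Function.iterate_succ_apply']; exact h3 _ ih
  exact eq_zero_of_pow_eq_zero hm

theorem ad_iter {R : Type} [Ring R] (A S T : R) (j : ℕ) : (fun T => A * T - T * A)^[j] (S * T) =
    ∑ p ∈ Finset.HasAntidiagonal.antidiagonal j, j.choose p.1 •
      ((fun T => A * T - T * A)^[p.1] S * (fun T => A * T - T * A)^[p.2] T) := by
  induction j with
  | zero => simp
  | succ j ih =>
    rw [Finset.sum_antidiagonal_choose_succ_nsmul (fun i k => (fun T => A * T - T * A)^[i] S *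
      (fun T => A * T - T * A)^[k] T), Function.iterate_succ_apply', ih, Finset.mul_sum,
      Finset.sum_mul, ← Finset.sum_sub_distrib, ← Finset.sum_add_distrib]
    refine Finset.sum_congr rfl fun p hp => ?_
    rw [← Nat.choose_symm_of_eq_add (Finset.HasAntidiagonal.mem_antidiagonal.1 hp).symm,
      Function.iterate_succ_apply', Function.iterate_succ_apply', mul_smul_comm, smul_mul_assoc,
      ← smul_sub, ← smul_add]
    congr 1
    noncomm_ring

theorem br_mem [CharZero K] (ha : v ∈ FV D a I) (hb : v ∈ FV D b I) : br D a b ∈ gg D v := by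
  intro k μ hμ
  obtain ⟨F, h1, h2⟩ := fg_three (FV_pw ha k) (FV_pw hb k)
  let T : (Fin n → K) → AddMonoid.End ((Fin k → I) → K) := fun c => ac D c
  let ad := fun S => T a * S - S * T a
  have h3 : ∀ i, ad^[i] (T b) = T ((br D a)^[i] b) := fun i => by
    induction i with
    | zero => rfl
    | succ i ih =>
      rw [Function.iterate_succ_apply', Function.iterate_succ_apply', ih]
      exact AddMonoidHom.ext (ac_br D a _)
  have h4 : ∀ c m y, (T c ^ m) y = (ac D c)^[m] y := fun c m y => by
    induction m with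
    | zero => rfl
    | succ m ih => rw [pow_succ', Function.iterate_succ_apply', ← ih]; rfl
  have h5 : ∀ m j i i', (T a ^ i * ad^[j] (T b ^ m) * T a ^ i') (pw v k) ∈ F := fun m j => by
    induction j with
    | zero => exact fun i i' => by simpa [h4, T] using h2 i m i'
    | succ j ih =>
      intro i i'
      have := F.sub_mem (ih (i + 1) i') (ih i (i' + 1))
      rw [Function.iterate_succ_apply']
      convert this using 1
      refine Eq.trans (congrArg (fun S : AddMonoid.End _ => S (pw v k)) ?_) (AddMonoidHom.sub_apply _ _ _)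
      generalize ad^[j] (T b ^ m) = S
      simp only [ad, pow_succ (T a) i, pow_succ' (T a) i', mul_sub, sub_mul, mul_assoc]
      rfl
  have h6 : ∀ m : ℕ, ∃ c : ℕ → AlgebraicClosure K,
      (∀ j, (ad^[j] (T b ^ m) (pw v k), c j) ∈ Gr D (E K n) (fun _ => (1 : ℝ)) (pw v k) μ m) ∧
      (∀ j < m, c j = 0) ∧ c m = m.factorial * (∑ i, br D a b i • μ i) ^ m := fun m => by
    induction m with
    | zero =>
      refine ⟨fun j => if j = 0 then 1 else 0, fun j => ?_, fun _ h => (Nat.not_lt_zero _ h).elim,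
        by simp⟩
      cases j with
      | zero => exact wd_mem_gr (l := []) Nat.cast_zero.symm
      | succ j =>
        rw [Function.iterate_succ_apply, Function.iterate_fixed]
        · simp only [ad, pow_zero, mul_one, one_mul, sub_self]
          exact Submodule.zero_mem _
        · simp [ad]
    | succ m ih =>
      obtain ⟨c, k1, k2, k3⟩ := ih
      have k0 := mem_gg hb k μ hμ
      refine ⟨fun j => ∑ p ∈ Finset.HasAntidiagonal.antidiagonal j, j.choose p.1 •
        ((∑ i, (br D a)^[p.1] b i • μ i) * c p.2), fun j => ?_, fun j hj => ?_, ?_⟩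
      · have := Submodule.sum_mem _ fun p (_ : p ∈ Finset.HasAntidiagonal.antidiagonal j) =>
          nsmul_mem (gr_ac ((br D a)^[p.1] b) (k1 p.2)) (j.choose p.1)
        rw [pow_succ', ad_iter, Nat.cast_succ, add_comm]
        convert this using 1
        refine Prod.ext ?_ ?_
        · simp only [Prod.fst_sum, Prod.smul_fst]
          refine (AddMonoidHom.finset_sum_apply _ _ _).trans (Finset.sum_congr rfl fun p _ => ?_)
          rw [h3]
          rfl
        · simp only [Prod.snd_sum, Prod.smul_snd]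
      · refine Finset.sum_eq_zero fun p hp => ?_
        have := Finset.HasAntidiagonal.mem_antidiagonal.1 hp
        rcases Nat.eq_zero_or_pos p.1 with e | e
        · rw [e, Function.iterate_zero_apply, k0, zero_mul, smul_zero]
        · rw [k2 p.2 (by omega), mul_zero, smul_zero]
      · dsimp only
        rw [Finset.sum_eq_single_of_mem (1, m) (Finset.HasAntidiagonal.mem_antidiagonal.2 (add_comm _ _))]
        · simp only [Nat.choose_one_right, Function.iterate_one, k3, Nat.factorial_succ,
            nsmul_eq_mul, Nat.cast_mul]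
          ring
        · intro p hp hp'
          have := Finset.HasAntidiagonal.mem_antidiagonal.1 hp
          rcases Nat.eq_zero_or_pos p.1 with e | e
          · rw [e, Function.iterate_zero_apply, k0, zero_mul, smul_zero]
          · rw [k2 p.2 (by_contra fun h => hp' (Prod.ext (by omega) (by omega))), mul_zero,
              smul_zero]
  choose c k1 _ k3 using h6
  obtain ⟨m, hm⟩ := hμ.rel (fun m => k1 m m) h1 fun m => by simpa using h5 m m 0 0
  haveI : CharZero (AlgebraicClosure K) := algebraRat.charZero _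
  exact eq_zero_of_pow_eq_zero
    ((mul_eq_zero.1 ((k3 m).symm.trans hm)).resolve_left (Nat.cast_ne_zero.2 m.factorial_ne_zero))

theorem exists_indep [CharZero K] (hv : v ≠ 0) {p : ℕ} (e : Fin p → Fin n)
    (h : ∀ c : Fin p → K, ∑ m, c m • E K n (e m) ∈ gg D v → c = 0) :
    ∃ a, LinearIndependent K fun α : Fin p → ℕ => wd D (E K n) (mw e α) (pw v (a + 1)) := by
  classical
  let L := AlgebraicClosure K
  haveI : CharZero L := algebraRat.charZero _
  have h0 : ∀ k, Pt D (E K n) (fun _ => (1 : ℝ)) (pw v k) (0 : Fin n → L) := fun k =>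
    pt_zero (fun _ => one_pos) (pw_ne_zero hv k)
  have h1 : ∀ k (c : L) (μ : Fin n → L), Pt D (E K n) (fun _ => (1 : ℝ)) (pw v k) μ →
      Pt D (E K n) (fun _ => (1 : ℝ)) (pw v k) (c • μ) := fun k c μ hμ =>
    hμ.scale (fun _ => c) fun l l' e => by
      rw [wt_one, wt_one, Nat.cast_inj] at e
      simp [pr, e]
  let W : Submodule L (Fin n → L) :=
    { carrier := {μ | ∃ k, Pt D (E K n) (fun _ => (1 : ℝ)) (pw v k) μ}
      add_mem' := fun ⟨_, h⟩ ⟨_, h'⟩ => ⟨_, h.add h'⟩
      zero_mem' := ⟨0, h0 0⟩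
      smul_mem' := fun c μ ⟨k, h⟩ => ⟨k, h1 k c μ h⟩ }
  have h2 : ∀ s : Finset (Fin n → L), (∀ μ ∈ s, μ ∈ W) → ∃ a, ∀ μ ∈ Submodule.span L (s : Set (Fin n → L)),
      Pt D (E K n) (fun _ => (1 : ℝ)) (pw v (a + 1)) μ := fun s => by
    induction s using Finset.induction_on with
    | empty => exact fun _ => ⟨0, fun μ hμ => by
        rw [Finset.coe_empty, Submodule.span_empty, Submodule.mem_bot] at hμ
        exact hμ ▸ h0 _⟩
    | insert ν s _ ih =>
      intro hs
      obtain ⟨a, ha⟩ := ih fun μ hμ => hs μ (Finset.mem_insert_of_mem hμ)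
      obtain ⟨k, hk⟩ := hs ν (Finset.mem_insert_self _ _)
      refine ⟨k + a, fun μ hμ => ?_⟩
      rw [Finset.coe_insert, Submodule.mem_span_insert] at hμ
      obtain ⟨c, z, hz, rfl⟩ := hμ
      exact (h1 k c ν hk).add (ha z hz)
  obtain ⟨s, hs⟩ : W.FG := IsNoetherian.noetherian W
  obtain ⟨a, ha⟩ := h2 s fun μ hμ => hs ▸ Submodule.subset_span hμ
  let U : Submodule L (Fin p → L) :=
    { carrier := {c | ∀ μ ∈ W, ∑ m, c m * μ (e m) = 0}
      add_mem' := fun ha hb μ h => by
        simp only [Pi.add_apply, add_mul, Finset.sum_add_distrib, ha μ h, hb μ h, add_zero]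
      zero_mem' := fun _ _ => by simp
      smul_mem' := fun c b hb μ h => by
        simp only [Pi.smul_apply, smul_eq_mul, mul_assoc, ← Finset.mul_sum, hb μ h, mul_zero] }
  have h3 : U = ⊥ := by_contra fun hU => by
    obtain ⟨b, k1, k2⟩ := descent U (fun τ c hc μ ⟨k, hk⟩ => by
      simpa using congrArg τ (hc _ ⟨k, hk.map τ.symm.toAlgHom⟩)) hU
    refine k1 (h b fun k μ hμ => Eq.trans ?_ (k2 μ ⟨k, hμ⟩))
    simp only [Finset.sum_apply, Finset.sum_smul]
    rw [Finset.sum_comm]
    simp [E, Pi.single_apply, ite_smul, ← Algebra.smul_def]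
    simp only [Algebra.smul_def]
  have h4 : ∀ ζ : Fin p → L, ∃ μ ∈ W, μ ∘ e = ζ := fun ζ => by_contra fun hζ => by
    obtain ⟨f, k1, k2⟩ := Submodule.exists_dual_map_eq_bot_of_notMem
      (p := W.map (LinearMap.funLeft L L e)) hζ inferInstance
    have k3 : (fun m => f (Pi.single m 1)) ∈ U := fun μ hμ => by
      have : f (μ ∘ e) = 0 := (Submodule.mem_bot L).1
        (k2 ▸ Submodule.mem_map_of_mem (Submodule.mem_map_of_mem hμ))
      rw [pi_eq_sum_univ' (μ ∘ e), map_sum] at this
      simpa [mul_comm] using this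
    rw [h3, Submodule.mem_bot] at k3
    refine k1 ?_
    rw [pi_eq_sum_univ' ζ, map_sum]
    exact Finset.sum_eq_zero fun m _ => by rw [map_smul, congrFun k3 m, Pi.zero_apply, smul_zero]
  let χ : (Fin p → ℕ) → (Fin p → L) →* L := fun α =>
    { toFun := fun ζ => ∏ i, ζ i ^ α i
      map_one' := by simp
      map_mul' := fun _ _ => by simp [mul_pow, Finset.prod_mul_distrib] }
  have h5 : Function.Injective χ := fun α β e => funext fun i => by
    have k : ∀ α, χ α (Function.update 1 i 2) = ((2 ^ α i : ℕ) : L) := fun α => by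
      refine (Finset.prod_eq_single i (fun j _ hj => ?_) fun h =>
        (h (Finset.mem_univ _)).elim).trans ?_
      · rw [Function.update_of_ne hj, Pi.one_apply, one_pow]
      · rw [Function.update_self, Nat.cast_pow, Nat.cast_ofNat]
    exact Nat.pow_right_injective le_rfl (Nat.cast_injective (R := L) ((k α).symm.trans (e ▸ k β)))
  refine ⟨a, linearIndependent_iff'.2 fun t g hg α hα => by_contra fun h6 => ?_⟩
  obtain ⟨β, hβ, hβ'⟩ := (t.filter fun j => g j ≠ 0).exists_max_image (fun α => ∑ i, α i)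
    ⟨α, Finset.mem_filter.2 ⟨hα, h6⟩⟩
  have h7 := linearIndependent_iff'.1 ((linearIndependent_monoidHom _ L).comp χ h5) t
    (fun α => if ∑ i, α i = ∑ i, β i then algebraMap K L (g α) else 0) (funext fun ζ => by
      obtain ⟨μ, k1, rfl⟩ := h4 ζ
      obtain ⟨φ, hφ⟩ := ha μ (hs ▸ k1) (∑ i, β i : ℕ)
      refine Eq.trans ?_ ((congrArg φ hg).trans (map_zero φ))
      rw [Finset.sum_apply, map_sum]
      refine Finset.sum_congr rfl fun γ hγ => ?_
      have k2 := hφ (mw e γ)
      rw [wt_one, length_mw, Nat.cast_lt, Nat.cast_inj, pr_mw] at k2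
      rw [map_smul]
      split_ifs with k3
      · rw [k2.2 k3, Algebra.smul_def (g γ)]
        rfl
      · by_cases k4 : g γ = 0
        · simp [k4]
        · simp [k2.1 (lt_of_le_of_ne (hβ' γ (Finset.mem_filter.2 ⟨hγ, k4⟩)) k3)])
    β (Finset.mem_filter.1 hβ).1
  rw [if_pos rfl, map_eq_zero] at h7
  exact (Finset.mem_filter.1 hβ).2 h7

theorem exists_nstd [Fintype σ] (hs : ∀ b, ∃ a : σ → K, ∑ i, a i • δ i = b)
    (hc : Fintype.card σ = n) {j : σ} (hj : δ j ∈ gg D v) (k : ℕ) :
    ∃ N, ¬ Std D δ (fun _ => (1 : ℝ)) (pw v k) (List.replicate N j) := by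
  let B := basisOfTopLeSpanOfCardEqFinrank δ
    (fun b _ => (Submodule.mem_span_range_iff_exists_fun K).2 (hs b)) (by simp [hc])
  have hB : ∀ i, B i = δ i := congrFun (coe_basisOfTopLeSpanOfCardEqFinrank _ _ _)
  refine (exists_pow (L := AlgebraicClosure K) (cp_one hs) fun μ hμ => ?_).imp fun N hN =>
    not_not.2 (wt_replicate (fun _ => (1 : ℝ)) j N ▸ hN)
  have h1 := hμ.frame fun i j => B.repr (E K n i) j
  have h2 : ∀ i, ∑ j, B.repr (E K n i) j • μ j = B.constr K μ (E K n i) := fun i =>
    (B.constr_apply_fintype K μ _).symm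
  simp only [← hB, B.sum_repr, h2] at h1
  have h3 := hj k _ h1
  simp only [← map_smul, ← map_sum, sum_E] at h3
  rwa [← hB, B.constr_basis] at h3

theorem small_of_ech {d p : ℕ} (e : Fin d ⊕ Fin p ≃ Fin n) (B : Fin d → Fin p → K)
    (h : ∀ l, leafVF e B l ∈ gg D v) (k : ℕ) : Small D (pw v k) p := by
  classical
  let δ : Fin d ⊕ Fin p → Fin n → K := Sum.elim (leafVF e B) fun m => E K n (e (.inr m))
  have hs : ∀ b, ∃ a : Fin d ⊕ Fin p → K, ∑ i, a i • δ i = b := fun b =>
    ⟨Sum.elim (fun l => b (e (.inl l))) fun m => b (e (.inr m)) - ∑ l, b (e (.inl l)) * B l m,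
      funext fun i => by
      obtain ⟨i, rfl⟩ := e.surjective i
      cases i <;> simp [δ, leafVF, E, Pi.single_apply, Finset.sum_apply]⟩
  obtain ⟨τ, hτ⟩ := exists_inj (Fin d ⊕ Fin p)
  refine small_of_full ((cp_one hs).lx τ) hs (q := 1) (fun l l' e => ?_) fun T hT => ?_
  · simpa [wt_one] using wt_lx_le e
  · refine (Finset.card_le_card (t := Finset.univ.image Sum.inr) fun j hj => ?_).trans
      (Finset.card_image_le.trans (by simp))
    cases j with
    | inr m => simp
    | inl l =>
      obtain ⟨N, hN⟩ := exists_nstd hs (by simpa using Fintype.card_congr e) (j := .inl l) (h l) k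
      exact (hT _ (fun i hi => List.eq_of_mem_replicate hi ▸ hj) (low_lx τ (not_not.1 hN))).elim

end Vale.Agent.P284Z.DA
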