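import Mathlib
import Vale.Agent.P284Z.Defs

/-!
# P284Z, block B: vector fields acting on vectors with coordinates in a differential field
-/

set_option linter.all false

open Set

noncomputable section

namespace Vale.Agent.P284Z.DA

variable {K : Type} [Field K] {n : ℕ} (D : Der K n) {I I' σ : Type}

theorem vf_add (b : Fin n → K) (f g : K) : D.vf b (f + g) = D.vf b f + D.vf b g := by
  simp only [Der.vf, map_add, mul_add, Finset.sum_add_distrib]

theorem vf_zero (b : Fin n → K) : D.vf b 0 = 0 := by simp [Der.vf]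

theorem vf_mul (b : Fin n → K) (f g : K) : D.vf b (f * g) = D.vf b f * g + f * D.vf b g := by
  simp only [Der.vf, D.mul, Finset.sum_mul, Finset.mul_sum, ← Finset.sum_add_distrib]
  exact Finset.sum_congr rfl fun i _ => by ring

theorem d_one (i : Fin n) : D.d i 1 = 0 := by
  have h := D.mul i 1 1
  rw [one_mul, mul_one, one_mul] at h
  exact left_eq_add.1 h

theorem vf_one (b : Fin n → K) : D.vf b 1 = 0 := by simp [Der.vf, d_one]

theorem vf_single (i : Fin n) (f : K) : D.vf (Pi.single i 1) f = D.d i f := by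
  simp [Der.vf, Pi.single_apply]

/-- the action of a vector field on vectors -/
def ac (b : Fin n → K) : (I → K) →+ (I → K) where
  toFun x i := D.vf b (x i)
  map_zero' := funext fun _ => vf_zero D b
  map_add' _ _ := funext fun _ => vf_add D b _ _

theorem ac_apply (b : Fin n → K) (x : I → K) (i : I) : ac D b x i = D.vf b (x i) := rfl

theorem ac_smul (b : Fin n → K) (c : K) (x : I → K) :
    ac D b (c • x) = D.vf b c • x + c • ac D b x := funext fun _ => vf_mul D b _ _

/-- the action as a linear function of the vector field -/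
def acx (x : I → K) : (Fin n → K) →ₗ[K] (I → K) where
  toFun b := ac D b x
  map_add' a b := funext fun i => by
    simp only [ac_apply, Der.vf, Pi.add_apply, add_mul, Finset.sum_add_distrib]
  map_smul' c b := funext fun i => by
    simp only [ac_apply, Der.vf, Pi.smul_apply, smul_eq_mul, RingHom.id_apply, Finset.mul_sum,
      mul_assoc]

theorem acx_apply (x : I → K) (b : Fin n → K) : acx D x b = ac D b x := rfl

/-- the bracket -/
def br (a b : Fin n → K) : Fin n → K := fun i => D.vf a (b i) - D.vf b (a i)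

theorem vf_br (a b : Fin n → K) (f : K) :
    D.vf a (D.vf b f) - D.vf b (D.vf a f) = D.vf (br D a b) f := by
  have h : ∀ a b : Fin n → K, D.vf a (D.vf b f) =
      ∑ j, D.vf a (b j) * D.d j f + ∑ i, ∑ j, a i * b j * D.d i (D.d j f) := fun a b => by
    simp only [Der.vf, map_sum, D.mul, Finset.mul_sum, Finset.sum_mul, mul_add,
      Finset.sum_add_distrib, mul_assoc]
    rw [Finset.sum_comm]
  rw [h, h, Finset.sum_comm (f := fun i j => b i * a j * D.d i (D.d j f))]
  simp only [D.comm, mul_comm (b _) (a _), add_sub_add_right_eq_sub]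
  simp only [Der.vf, br, sub_mul, Finset.sum_sub_distrib]

theorem ac_br (a b : Fin n → K) (x : I → K) :
    ac D a (ac D b x) - ac D b (ac D a x) = ac D (br D a b) x := funext fun _ => vf_br D a b _

theorem ac_span {b : Fin n → K} {s : Set (I → K)} {F : Submodule K (I → K)} (h1 : s ⊆ F)
    (h2 : ∀ y ∈ s, ac D b y ∈ F) {y : I → K} (hy : y ∈ Submodule.span K s) : ac D b y ∈ F := by
  induction hy using Submodule.span_induction with
  | mem y hy => exact h2 y hy
  | zero => rw [map_zero]; exact F.zero_mem
  | add y z _ _ hy hz => rw [map_add]; exact F.add_mem hy hz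
  | smul c y hy hy' =>
    rw [ac_smul]
    exact F.add_mem (F.smul_mem _ (Submodule.span_le.2 h1 hy)) (F.smul_mem _ hy')

/-- a word in the vector fields `δ` applied to `x` -/
def wd (δ : σ → Fin n → K) (l : List σ) (x : I → K) : I → K :=
  l.foldr (fun j y => ac D (δ j) y) x

theorem wd_nil (δ : σ → Fin n → K) (x : I → K) : wd D δ [] x = x := rfl

theorem wd_cons (δ : σ → Fin n → K) (j : σ) (l : List σ) (x : I → K) :
    wd D δ (j :: l) x = ac D (δ j) (wd D δ l x) := rfl

theorem wd_append (δ : σ → Fin n → K) (l l' : List σ) (x : I → K) :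
    wd D δ (l ++ l') x = wd D δ l (wd D δ l' x) := List.foldr_append

theorem wd_apply (δ : σ → Fin n → K) (l : List σ) (x : I → K) (i : I) :
    wd D δ l x i = l.foldr (fun j g => D.vf (δ j) g) (x i) := by
  induction l with
  | nil => rfl
  | cons j l ih => rw [wd_cons, ac_apply, ih, List.foldr_cons]

theorem wd_comp (δ : σ → Fin n → K) (l : List σ) (x : I → K) (r : I' → I) :
    wd D δ l (x ∘ r) = wd D δ l x ∘ r := funext fun i => by
  rw [Function.comp_apply, wd_apply, wd_apply, Function.comp_apply]

theorem wd_replicate (δ : σ → Fin n → K) (j : σ) (m : ℕ) (x : I → K) :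
    wd D δ (List.replicate m j) x = (ac D (δ j))^[m] x := by
  induction m with
  | zero => rfl
  | succ m ih => rw [List.replicate_succ, wd_cons, ih, Function.iterate_succ_apply']

/-- the tensor product of two vectors -/
def tn : (I → K) →ₗ[K] (I' → K) →ₗ[K] (I × I' → K) :=
  LinearMap.mk₂ K (fun x y p => x p.1 * y p.2) (fun _ _ _ => funext fun _ => add_mul _ _ _)
    (fun _ _ _ => funext fun _ => mul_assoc _ _ _) (fun _ _ _ => funext fun _ => mul_add _ _ _)
    fun _ _ _ => funext fun _ => mul_left_comm _ _ _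

theorem tn_apply (x : I → K) (y : I' → K) (p : I × I') : tn x y p = x p.1 * y p.2 := rfl

theorem ac_tn (b : Fin n → K) (x : I → K) (y : I' → K) :
    ac D b (tn x y) = tn (ac D b x) y + tn x (ac D b y) := funext fun _ => vf_mul D b _ _

/-- the tensor power -/
def pw (v : I → K) (k : ℕ) : (Fin k → I) → K := fun i => ∏ u, v (i u)

theorem pw_add (v : I → K) (k l : ℕ) :
    pw v (k + l) ∘ (fun p : (Fin k → I) × (Fin l → I) => Fin.append p.1 p.2) =
      tn (pw v k) (pw v l) := funext fun p => by
  simp [pw, tn_apply, Fin.prod_univ_add]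

theorem pw_ne_zero {v : I → K} (hv : v ≠ 0) (k : ℕ) : pw v k ≠ 0 := by
  obtain ⟨i, hi⟩ := Function.ne_iff.1 hv
  exact Function.ne_iff.2 ⟨fun _ => i, Finset.prod_ne_zero_iff.2 fun _ _ => hi⟩

/-- the vectors on which `b` acts finitely -/
def FV (b : Fin n → K) (I : Type) : Submodule K (I → K) where
  carrier := {x | ∃ F : Submodule K (I → K), F.FG ∧ x ∈ F ∧ ∀ y ∈ F, ac D b y ∈ F}
  zero_mem' := ⟨⊥, Submodule.fg_bot, Submodule.zero_mem _, fun y hy => by
    rw [(Submodule.mem_bot K).1 hy, map_zero]; exact Submodule.zero_mem _⟩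
  add_mem' := by
    rintro x y ⟨F, h1, h2, h3⟩ ⟨G, k1, k2, k3⟩
    refine ⟨F ⊔ G, h1.sup k1, Submodule.add_mem_sup h2 k2, fun z hz => ?_⟩
    obtain ⟨a, ha, c, hc, rfl⟩ := Submodule.mem_sup.1 hz
    rw [map_add]
    exact Submodule.add_mem_sup (h3 a ha) (k3 c hc)
  smul_mem' := fun c _ ⟨F, h1, h2, h3⟩ => ⟨F, h1, F.smul_mem c h2, h3⟩

end Vale.Agent.P284Z.DA
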