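import Vale.Agent.P284Z.B.Low

/-!
# P284Z, block B: standard words and growth
-/

set_option linter.all false

open Set Filter

noncomputable section

namespace Vale.Agent.P284Z.DA

variable {K : Type} [Field K] {n : ℕ} (D : Der K n) {I I' σ Λ Λ' : Type} [AddCommGroup Λ]
  [LinearOrder Λ] [IsOrderedAddMonoid Λ] [AddCommGroup Λ'] [LinearOrder Λ'] [IsOrderedAddMonoid Λ']

/-- standard words -/
def Std (δ : σ → Fin n → K) (ω : σ → Λ) (x : I → K) (l : List σ) : Prop :=
  wd D δ l x ∉ Low D δ ω x (wt ω l)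

/-- the weight determines the monomial -/
def Inj (ω : σ → Λ) : Prop := ∀ l l', wt ω l = wt ω l' → l.Perm l'

/-- all the words in the letters of `T` are standard -/
def Full (δ : σ → Fin n → K) (ω : σ → Λ) (x : I → K) (T : Finset σ) : Prop :=
  ∀ l, (∀ j ∈ l, j ∈ T) → Std D δ ω x l

/-- the filtration by the order -/
def Fl (x : I → K) (t : ℕ) : Submodule K (I → K) := Low D id (fun _ => (1 : ℝ)) x (t + 1)

/-- the growth exponent is at least `g` -/
def Big (x : I → K) (g : ℕ) : Prop := ∀ t, ∃ u : (Fin g → Fin (t + 1)) → I → K,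
  LinearIndependent K u ∧ ∀ i, u i ∈ Fl D x (g * t)

/-- the growth exponent is at most `g` -/
def Small (x : I → K) (g : ℕ) : Prop := ∃ C, ∀ t, ∃ S : Finset (I → K),
  S.card ≤ C * (t + 1) ^ g ∧ Fl D x t ≤ Submodule.span K S

/-- the word of a multi-index -/
def mw {g : ℕ} (e : Fin g → σ) (α : Fin g → ℕ) : List σ :=
  (List.ofFn fun i => List.replicate (α i) (e i)).flatten

/-- the lexicographic product of two weights -/
def lx (a : σ → Λ) (b : σ → Λ') : σ → Λ ×ₗ Λ' := fun i => toLex (a i, b i)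

variable {D} {δ : σ → Fin n → K} {ω : σ → Λ} {x y : I → K} {l l' : List σ} {g g' : ℕ}

theorem wt_lx (a : σ → Λ) (b : σ → Λ') (l : List σ) : wt (lx a b) l = toLex (wt a l, wt b l) := by
  induction l with
  | nil => rfl
  | cons j l ih => rw [wt_cons, ih]; rfl

theorem wt_lx_lt {a : σ → Λ} {b : σ → Λ'} : wt (lx a b) l < wt (lx a b) l' ↔
    wt a l < wt a l' ∨ wt a l = wt a l' ∧ wt b l < wt b l' := by
  rw [wt_lx, wt_lx, Prod.Lex.toLex_lt_toLex]

theorem wt_lx_le {a : σ → Λ} {b : σ → Λ'} (h : wt (lx a b) l ≤ wt (lx a b) l') :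
    wt a l ≤ wt a l' := not_lt.1 fun h' => h.not_gt (wt_lx_lt.2 (Or.inl h'))

theorem Cp.lx (h : Cp D δ ω) (b : σ → Λ') : Cp D δ (lx ω b) :=
  ⟨fun i => Prod.Lex.toLex_lt_toLex.2 (Or.inl (h.pos i)), fun i j => Submodule.span_mono
    (image_mono fun _ hm => Prod.Lex.toLex_lt_toLex.2 (Or.inl hm)) (h.br i j)⟩

theorem Inj.lx {b : σ → Λ'} (h : Inj b) (a : σ → Λ) : Inj (lx a b) := fun l l' e => by
  rw [wt_lx, wt_lx] at e
  exact h l l' (congrArg Prod.snd (toLex.injective e))

theorem low_lx (b : σ → Λ') : Low D δ ω x (wt ω l) ≤ Low D δ (lx ω b) x (wt (lx ω b) l) :=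
  Submodule.span_mono fun _ ⟨l', h1, h2⟩ => ⟨l', wt_lx_lt.2 (Or.inl h1), h2⟩

theorem exists_inj (σ : Type) [Fintype σ] : ∃ τ : σ → Lex (Fin (Fintype.card σ) → ℤ), Inj τ := by
  classical
  let e := Fintype.equivFin σ
  refine ⟨fun i => toLex (Pi.single (e i) 1), fun l l' h => List.perm_iff_count.2 fun j => ?_⟩
  have key : ∀ l : List σ, ofLex (wt (fun i => (toLex (Pi.single (e i) 1) :
      Lex (Fin (Fintype.card σ) → ℤ))) l) (e j) = l.count j := fun l => by
    induction l with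
    | nil => rfl
    | cons i l ih =>
      rw [wt_cons, ofLex_add, Pi.add_apply, ih, ofLex_toLex, List.count_cons, Pi.single_apply]
      simp only [e.apply_eq_iff_eq, beq_iff_eq, eq_comm (a := j)]
      split_ifs <;> simp [add_comm]
  exact_mod_cast (key l).symm.trans (h ▸ key l')

theorem std_perm (hC : Cp D δ ω) (h : l.Perm l') (hl : Std D δ ω x l) : Std D δ ω x l' :=
  fun h' => hl (sub_add_cancel (wd D δ l x) (wd D δ l' x) ▸
    Submodule.add_mem _ (low_perm (x := x) hC h) (wt_perm ω h ▸ h'))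

theorem Std.of_append (hC : Cp D δ ω) (t : List σ) (hl : Std D δ ω x (t ++ l)) :
    Std D δ ω x l := by
  induction t with
  | nil => exact hl
  | cons j t ih => exact ih fun h => hl (low_ac hC.pos j h)

theorem Std.of_le (hC : Cp D δ ω) (h : (l : Multiset σ) ≤ l') (hl : Std D δ ω x l') :
    Std D δ ω x l := by
  obtain ⟨t, ht⟩ := Multiset.le_iff_exists_add.1 h
  obtain ⟨t, rfl⟩ := Quot.exists_rep t
  exact (std_perm hC ((Multiset.coe_eq_coe.1 ht).trans List.perm_append_comm) hl).of_append hC t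

theorem std_nil (hp : ∀ i, 0 < ω i) (hx : x ≠ 0) : Std D δ ω x [] := fun h => by
  obtain ⟨φ, hφ⟩ := pt_zero (D := D) (δ := δ) (L := K) hp hx 0
  exact one_ne_zero (((hφ []).2 rfl).symm.trans (hφ.low h))

theorem Std.exists_fn (hl : Std D δ ω x l) : ∃ φ : (I → K) →ₗ[K] K, φ (wd D δ l x) ≠ 0 ∧
    ∀ y ∈ Low D δ ω x (wt ω l), φ y = 0 := by
  obtain ⟨φ, h2, h3⟩ := Submodule.exists_dual_map_eq_bot_of_notMem hl inferInstance
  exact ⟨φ, h2, fun y hy => (Submodule.mem_bot K).1 (h3 ▸ Submodule.mem_map_of_mem hy)⟩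

theorem std_indep {ι : Type} (u : ι → List σ) (hu : Function.Injective fun i => wt ω (u i))
    (h : ∀ i, Std D δ ω x (u i)) : LinearIndependent K fun i => wd D δ (u i) x :=
  indep_of_tri _ hu _ fun i => (h i).exists_fn.imp fun _ h => ⟨h.1, fun _ e => h.2 _ (wd_mem_low e)⟩

instance [Finite σ] : WellQuasiOrderedLE (Multiset σ) := by
  classical
  exact Finsupp.orderIsoMultiset.wellQuasiOrderedLE_iff.1 inferInstance

theorem wt_mono (hp : ∀ i, 0 < ω i) (h : (l : Multiset σ) ≤ l') : wt ω l ≤ wt ω l' := by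
  obtain ⟨t, ht⟩ := Multiset.le_iff_exists_add.1 h
  obtain ⟨t, rfl⟩ := Quot.exists_rep t
  rw [wt_perm ω (Multiset.coe_eq_coe.1 ht), wt, wt, List.map_append, List.sum_append]
  exact le_add_of_nonneg_right (wt_nonneg hp t)

theorem wt_wf [Finite σ] (hp : ∀ i, 0 < ω i) : WellFounded fun l l' => wt ω l < wt ω l' := by
  refine RelEmbedding.wellFounded_iff_isEmpty.2 ⟨fun f => ?_⟩
  obtain ⟨a, b, h, hf⟩ := wellQuasiOrdered_le fun i => (f i : Multiset σ)
  exact (f.map_rel_iff.2 h).not_ge (wt_mono hp hf)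

theorem toList_perm (l : List σ) : (l : Multiset σ).toList.Perm l :=
  Multiset.coe_eq_coe.1 (Multiset.coe_toList _)

theorem std_span [Finite σ] (hC : Cp D δ ω) (l : List σ) : wd D δ l x ∈ Submodule.span K
    {y | ∃ m : Multiset σ, Std D δ ω x m.toList ∧ wt ω m.toList ≤ wt ω l ∧
      y = wd D δ m.toList x} := by
  induction l using (wt_wf hC.pos).induction with
  | _ l ih =>
    have h1 : Low D δ ω x (wt ω l) ≤ Submodule.span K {y | ∃ m : Multiset σ,
        Std D δ ω x m.toList ∧ wt ω m.toList ≤ wt ω l ∧ y = wd D δ m.toList x} := by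
      refine Submodule.span_le.2 ?_
      rintro _ ⟨l', h, rfl⟩
      refine Submodule.span_mono ?_ (ih l' h)
      rintro _ ⟨m, a, b, c⟩
      exact ⟨m, a, b.trans h.le, c⟩
    have h2 := wt_perm ω (toList_perm l)
    rw [← sub_add_cancel (wd D δ l x) (wd D δ (l : Multiset σ).toList x)]
    refine Submodule.add_mem _ (h1 (low_perm hC (toList_perm l).symm)) ?_
    by_cases h : Std D δ ω x (l : Multiset σ).toList
    · exact Submodule.subset_span ⟨l, h, h2.le, rfl⟩
    · exact h1 (h2 ▸ not_not.1 h)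

theorem mem_spl (l l' : List σ) : (l, l') ∈ spl (l ++ l') := by
  induction l with
  | nil =>
    induction l' with
    | nil => exact List.mem_singleton_self _
    | cons j l ih => exact List.mem_append_right _ (List.mem_map.2 ⟨_, ih, rfl⟩)
  | cons j l ih => exact List.mem_append_left _ (List.mem_map.2 ⟨_, ih, rfl⟩)

open Classical in
theorem Std.adm (hC : Cp D δ ω) (hI : Inj ω) (hl : Std D δ ω x l) :
    Adm D δ ω x fun t => ((if t.Perm l then 1 else 0 : ℕ) : K) := fun s => by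
  by_cases hs : s = wt ω l
  · obtain ⟨φ, h1, h2⟩ := hl.exists_fn
    subst hs
    refine ⟨(φ (wd D δ l x))⁻¹ • φ, fun t => ⟨fun e => ?_, fun e => ?_⟩⟩
    · rw [LinearMap.smul_apply, h2 _ (wd_mem_low e), smul_zero]
    · have h3 := h2 _ (e ▸ low_perm hC (hI _ _ e))
      rw [map_sub, sub_eq_zero] at h3
      rw [LinearMap.smul_apply, h3, smul_eq_mul, inv_mul_cancel₀ h1]
      simp [hI _ _ e]
  · refine ⟨0, fun t => ⟨fun _ => rfl, fun e => ?_⟩⟩
    simp [show ¬ t.Perm l from fun h => hs (e.symm.trans (wt_perm ω h))]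

theorem Std.pw [CharZero K] (hC : Cp D δ ω) (hI : Inj ω) {k k' : ℕ}
    (hl : Std D δ ω (pw x k) l) (hl' : Std D δ ω (pw x k') l') :
    Std D δ ω (pw x (k + k')) (l ++ l') := fun h => by
  classical
  obtain ⟨φ, hφ⟩ := ((hl.adm hC hI).pw (hl'.adm hC hI)) (wt ω (l ++ l'))
  have h1 := ((hφ _).2 rfl).symm.trans (hφ.low h)
  simp only [conv, ← Nat.cast_mul] at h1
  rw [← Function.comp_def Nat.cast, ← List.map_map, ← Nat.cast_list_sum, Nat.cast_eq_zero,
    List.sum_eq_zero_iff] at h1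
  simpa using h1 _ (List.mem_map.2 ⟨_, mem_spl l l', rfl⟩)

theorem Full.insert [CharZero K] [DecidableEq σ] (hC : Cp D δ ω) (hI : Inj ω) {k k' : ℕ}
    {T : Finset σ} {j : σ} (h : Full D δ ω (pw x k) T)
    (h' : ∀ m, Std D δ ω (pw x k') (List.replicate m j)) :
    Full D δ ω (pw x (k + k')) (insert j T) := fun l hl => by
  refine std_perm hC (List.perm_append_comm.trans (List.filter_append_perm (· == j) l))
    (Std.pw hC hI (h _ fun i hi => ?_) (List.filter_beq j ▸ h' _))
  obtain ⟨h1, h2⟩ := List.mem_filter.1 hi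
  exact (Finset.mem_insert.1 (hl i h1)).resolve_left (by simpa using h2)

theorem length_mw (e : Fin g → σ) (α : Fin g → ℕ) : (mw e α).length = ∑ i, α i := by
  simp [mw, List.length_flatten, List.sum_ofFn, Function.comp_def]

theorem mem_mw {e : Fin g → σ} {α : Fin g → ℕ} {j : σ} (h : j ∈ mw e α) : ∃ i, j = e i := by
  obtain ⟨t, h1, h2⟩ := List.mem_flatten.1 h
  obtain ⟨i, rfl⟩ := List.mem_ofFn.1 h1
  exact ⟨i, List.eq_of_mem_replicate h2⟩

theorem count_mw [DecidableEq σ] {e : Fin g → σ} (he : Function.Injective e) (α : Fin g → ℕ)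
    (i : Fin g) : (mw e α).count (e i) = α i := by
  simp [mw, List.count_flatten, List.sum_ofFn, Function.comp_def, List.count_replicate, he.eq_iff]

theorem pr_mw {L : Type} [CommRing L] (μ : σ → L) (e : Fin g → σ) (α : Fin g → ℕ) :
    pr μ (mw e α) = ∏ i, μ (e i) ^ α i := by
  simp [mw, pr, List.map_flatten, List.prod_flatten, List.prod_ofFn, Function.comp_def]

theorem wd_mem_fl {t : ℕ} (h : l.length ≤ t) : wd D δ l x ∈ Fl D x t := by
  have e : wd D δ l x = wd D id (l.map δ) x := by simp [wd, List.foldr_map]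
  refine e ▸ wd_mem_low ?_
  rw [wt_one, List.length_map]
  exact_mod_cast Nat.lt_succ_of_le h

theorem fl_le [Fintype σ] (hs : ∀ b, ∃ a : σ → K, ∑ i, a i • δ i = b) (t : ℕ) :
    Fl D x t ≤ Submodule.span K {y | ∃ l : List σ, l.length ≤ t ∧ y = wd D δ l x} := by
  choose a ha using hs
  refine Submodule.span_le.2 ?_
  rintro _ ⟨l, h, rfl⟩
  have h1 := gr_fst (wd_mem_gr' (D := D) (δ := δ) (x := x) (μ := (0 : σ → K)) a l) (wt_one l ▸ h)
  simp only [ha] at h1
  refine Submodule.span_mono ?_ h1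
  rintro _ ⟨l', h2, h3⟩
  rw [wt_one] at h2
  exact ⟨l', Nat.le_of_lt_succ (by exact_mod_cast h2), h3⟩

theorem big_of_indep (e : Fin g → σ)
    (h : LinearIndependent K fun α : Fin g → ℕ => wd D δ (mw e α) x) : Big D x g := fun t =>
  ⟨_, h.comp (fun (β : Fin g → Fin (t + 1)) i => (β i : ℕ))
    fun _ _ e => funext fun i => Fin.ext (congrFun e i), fun β => wd_mem_fl (by
      rw [length_mw]
      simpa using Finset.sum_le_card_nsmul Finset.univ (fun i => (β i : ℕ)) t
        fun i _ => Nat.le_of_lt_succ (β i).2)⟩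

theorem Full.big (hI : Inj ω) {T : Finset σ} (h : Full D δ ω x T) : Big D x T.card := by
  classical
  have he : Function.Injective fun i => (T.equivFin.symm i : σ) :=
    Subtype.val_injective.comp T.equivFin.symm.injective
  refine big_of_indep (δ := δ) (fun i => (T.equivFin.symm i : σ))
    (std_indep (ω := ω) _ (fun α β e => funext fun i => ?_) fun α => h _ fun j hj => ?_)
  · rw [← count_mw he α i, ← count_mw he β i, (hI _ _ e).count_eq]
  · obtain ⟨i, rfl⟩ := mem_mw hj
    exact (T.equivFin.symm i).2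

theorem Big.le (h : Big D x g) (h' : Small D x g') : g ≤ g' := by
  obtain ⟨C, hC⟩ := h'
  by_contra hn
  obtain ⟨u, h1, h2⟩ := h (C * (g + 1) ^ g')
  obtain ⟨S, h3, h4⟩ := hC (g * (C * (g + 1) ^ g'))
  have h5 := linearIndependent_le_span_aux' u h1 S (by rintro _ ⟨i, rfl⟩; exact h4 (h2 i))
  simp only [Fintype.card_pi, Fintype.card_fin, Finset.prod_const, Finset.card_univ,
    Finset.coe_sort_coe, Fintype.card_coe] at h5
  generalize ht : C * (g + 1) ^ g' = t at h3 h5
  have h6 : (t + 1) ^ (g' + 1) ≤ t * (t + 1) ^ g' :=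
    calc (t + 1) ^ (g' + 1) ≤ (t + 1) ^ g := Nat.pow_le_pow_right t.succ_pos (not_le.1 hn)
      _ ≤ C * (g * t + 1) ^ g' := h5.trans h3
      _ ≤ C * ((g + 1) * (t + 1)) ^ g' := by gcongr; nlinarith
      _ = t * (t + 1) ^ g' := by rw [mul_pow, ← mul_assoc, ht]
  rw [pow_succ'] at h6
  exact absurd (Nat.le_of_mul_le_mul_right h6 (by positivity)) (by omega)

theorem small_of_full [Fintype σ] (hC : Cp D δ ω) (hs : ∀ b, ∃ a : σ → K, ∑ i, a i • δ i = b)
    {q : ℕ} (hq : ∀ l l', wt ω l ≤ wt ω l' → l.length ≤ q * l'.length)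
    (h : ∀ T, Full D δ ω x T → T.card ≤ g) : Small D x g := by
  classical
  have h1 : ∀ T : Finset σ, ∃ l : List σ, ¬ Full D δ ω x T →
      (∀ j ∈ l, j ∈ T) ∧ ¬ Std D δ ω x l := fun T => by
    by_cases hT : Full D δ ω x T
    · exact ⟨[], fun h => (h hT).elim⟩
    · obtain ⟨l, hl⟩ := not_forall.1 hT
      exact ⟨l, fun _ => Classical.not_imp.1 hl⟩
  choose u hu using h1
  obtain ⟨m, hm⟩ : ∃ m, ∀ T, (u T).length < m + 1 :=
    ⟨Finset.univ.sup fun T => (u T).length, fun T =>
      Nat.lt_succ_of_le (Finset.le_sup (f := fun T => (u T).length) (Finset.mem_univ T))⟩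
  refine ⟨2 ^ Fintype.card σ * ((m + 1) ^ Fintype.card σ * (q + 1) ^ g), fun t => ?_⟩
  let A : Finset (σ → ℕ) := (Finset.univ.filter fun T : Finset σ => T.card ≤ g).biUnion fun T =>
    Fintype.piFinset fun j => Finset.range (if j ∈ T then q * t + 1 else m + 1)
  refine ⟨A.image fun c => wd D δ (∑ j, c j • ({j} : Multiset σ)).toList x,
    Finset.card_image_le.trans ((Finset.card_biUnion_le_card_mul _ _
      ((m + 1) ^ Fintype.card σ * (q + 1) ^ g * (t + 1) ^ g) fun T hT => ?_).trans ?_),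
    (fl_le hs t).trans (Submodule.span_le.2 ?_)⟩
  · rw [Fintype.card_piFinset]
    simp only [Finset.card_range]
    rw [Finset.prod_ite, Finset.prod_const, Finset.prod_const, mul_comm, mul_assoc, ← mul_pow]
    refine Nat.mul_le_mul (Nat.pow_le_pow_right m.succ_pos (Finset.card_le_univ _)) ?_
    refine (Nat.pow_le_pow_right (Nat.succ_pos _) ?_).trans (Nat.pow_le_pow_left ?_ g)
    · simpa using (Finset.mem_filter.1 hT).2
    · nlinarith
  · rw [mul_assoc (2 ^ _)]
    exact Nat.mul_le_mul_right _ ((Finset.card_le_univ _).trans Fintype.card_finset.le)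
  · rintro _ ⟨l, hl, rfl⟩
    refine Submodule.span_mono ?_ (std_span hC l)
    rintro _ ⟨c, h2, h3, rfl⟩
    refine Finset.mem_coe.2 (Finset.mem_image.2 ⟨fun j => c.count j, Finset.mem_biUnion.2
      ⟨Finset.univ.filter fun j => m + 1 ≤ c.count j, Finset.mem_filter.2 ⟨Finset.mem_univ _,
        h _ (by_contra fun hT => (hu _ hT).2 (h2.of_le hC ?_))⟩, Fintype.mem_piFinset.2 fun j => ?_⟩, ?_⟩)
    · rw [Multiset.coe_toList, Multiset.le_iff_count]
      intro j
      rw [Multiset.coe_count]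
      by_cases hj : j ∈ u (Finset.univ.filter fun j => m + 1 ≤ c.count j)
      · exact List.count_le_length.trans ((hm _).le.trans (Finset.mem_filter.1 ((hu _ hT).1 j hj)).2)
      · rw [List.count_eq_zero_of_not_mem hj]
        exact Nat.zero_le _
    · rw [Finset.mem_range]
      split_ifs with hj
      · refine Nat.lt_succ_of_le ((Multiset.count_le_card j c).trans ?_)
        rw [← Multiset.length_toList]
        exact (hq _ _ h3).trans (Nat.mul_le_mul_left _ hl)
      · simpa using hj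
    · congr 2
      ext j
      simp [Multiset.count_sum', Multiset.count_singleton]

/-- comparison of an order with weights -/
theorem transfer [Finite σ] (hC : Cp D δ ω) (hI : Inj ω) {A : Type} {F : Filter A}
    {w : A → σ → ℝ} (hw : ∀ᶠ q in F, Cp D δ (w q))
    (h : ∀ l l', wt ω l < wt ω l' → ∀ᶠ q in F, wt (w q) l ≤ wt (w q) l') :
    ∀ᶠ q in F, ∀ l, Std D δ ω x l → Std D δ (w q) x l := by
  let B : Set (Multiset σ) := {m | ¬ Std D δ ω x m.toList}
  have hB : {m | Minimal (· ∈ B) m}.Finite :=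
    WellQuasiOrderedLE.finite_of_isAntichain (setOf_minimal_antichain _)
  have h1 : ∀ m ∈ B, ∀ᶠ q in F, ¬ Std D δ (lx (w q) ω) x m.toList := fun m hm => by
    obtain ⟨S, h2, h3⟩ := Submodule.mem_span_finite_of_mem_span (not_not.1 hm)
    have h4 : ∀ y ∈ S, ∀ᶠ q in F, y ∈ Low D δ (lx (w q) ω) x (wt (lx (w q) ω) m.toList) := by
      intro y hy
      obtain ⟨l, h5, rfl⟩ := h2 hy
      exact (h _ _ h5).mono fun q hq => wd_mem_low
        (wt_lx_lt.2 (hq.lt_or_eq.imp id fun e => ⟨e, h5⟩))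
    exact ((eventually_all_finset S).2 h4).mono fun q hq => not_not.2 (Submodule.span_le.2 hq h3)
  filter_upwards [hw, (eventually_all_finite hB).2 fun m hm => h1 m hm.prop] with q hq h2 l hl h3
  have h4 : ∀ m : Multiset σ, Std D δ (lx (w q) ω) x m.toList → Std D δ ω x m.toList :=
    fun m hm => by_contra fun hm' => by
      obtain ⟨a, h5, h6⟩ := exists_minimal_le_of_wellFoundedLT (· ∈ B) m hm'
      exact h2 a h6 (hm.of_le (hq.lx ω) (by rwa [Multiset.coe_toList, Multiset.coe_toList]))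
  have h5 : LinearIndependent K fun m : {m : Multiset σ // Std D δ ω x m.toList} =>
      wd D δ m.1.toList x := std_indep _ (fun a b e => Subtype.ext (by
        rw [← a.1.coe_toList, ← b.1.coe_toList]
        exact Multiset.coe_eq_coe.2 (hI _ _ e))) fun m => m.2
  have h6 := toList_perm l
  refine h5.notMem_span_image (s := {m | wt (w q) m.1.toList < wt (w q) l})
    (x := ⟨l, std_perm hC h6.symm hl⟩) (wt_perm (w q) h6).not_lt ?_
  refine (Submodule.span_le.2 ?_ : Low D δ (w q) x (wt (w q) l) ≤ _)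
    (wt_perm (w q) h6 ▸ not_not.1 fun h7 => std_perm hq h6 h7 h3)
  rintro _ ⟨l', h7, rfl⟩
  refine Submodule.span_mono ?_ (std_span (hq.lx ω) l')
  rintro _ ⟨m, h8, h9, rfl⟩
  exact ⟨⟨m, h4 m h8⟩, (wt_lx_le h9).trans_lt h7, rfl⟩

end Vale.Agent.P284Z.DA
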