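import Vale.Agent.P284Z.B.Defs

/-!
# P284Z, block B: weight filtrations, admissible functions, characteristic points
-/

set_option linter.all false

open Set
open scoped TensorProduct

noncomputable section

namespace Vale.Agent.P284Z.DA

section lin

variable {K M N L : Type} [Field K] [AddCommGroup M] [Module K M] [AddCommGroup N] [Module K N]
  [AddCommGroup L] [Module K L]

theorem exists_factor (f : N →ₗ[K] M) (g : N →ₗ[K] L) (h : ∀ y, f y = 0 → g y = 0) :
    ∃ φ : M →ₗ[K] L, ∀ y, φ (f y) = g y := by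
  obtain ⟨φ, hφ⟩ := (((LinearMap.ker f).liftQ g h).comp
    f.quotKerEquivRange.symm.toLinearMap).exists_extend
  refine ⟨φ, fun y => (LinearMap.congr_fun hφ ⟨f y, y, rfl⟩).trans ?_⟩
  exact congrArg ((LinearMap.ker f).liftQ g h) (f.quotKerEquivRange_symm_apply_image y ⟨y, rfl⟩)

theorem indep_of_tri {ι Λ : Type} [LinearOrder Λ] (f : ι → Λ) (hf : Function.Injective f)
    (u : ι → M) (h : ∀ i, ∃ φ : M →ₗ[K] L, φ (u i) ≠ 0 ∧ ∀ j, f j < f i → φ (u j) = 0) :
    LinearIndependent K u := by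
  classical
  refine linearIndependent_iff'.2 fun s g hg i hi => by_contra fun h0 => ?_
  obtain ⟨k, hk, hk'⟩ := (s.filter fun j => g j ≠ 0).exists_max_image f
    ⟨i, Finset.mem_filter.2 ⟨hi, h0⟩⟩
  obtain ⟨φ, h1, h2⟩ := h k
  have h3 := congrArg φ hg
  rw [map_sum, map_zero, Finset.sum_eq_single_of_mem k (Finset.mem_filter.1 hk).1, map_smul] at h3
  · exact smul_ne_zero (Finset.mem_filter.1 hk).2 h1 h3
  · intro j hj hjk
    by_cases h4 : g j = 0
    · rw [h4, zero_smul, map_zero]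
    · rw [map_smul, h2 j (lt_of_le_of_ne (hk' j (Finset.mem_filter.2 ⟨hj, h4⟩)) (hf.ne hjk)),
        smul_zero]

theorem exists_tn {I I' : Type} (β : (I → K) →ₗ[K] (I' → K) →ₗ[K] L) :
    ∃ Φ : (I × I' → K) →ₗ[K] L, ∀ x y, Φ (tn x y) = β x y := by
  classical
  obtain ⟨Φ, h⟩ := exists_factor (TensorProduct.lift (tn (K := K) (I := I) (I' := I')))
    (TensorProduct.lift β) fun t ht => by
    let e := Module.Free.chooseBasis K (I → K)
    obtain ⟨c, rfl⟩ := (TensorProduct.equivFinsuppOfBasisLeft e).symm.surjective t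
    have h1 : ∀ c, (TensorProduct.equivFinsuppOfBasisLeft (N := I' → K) e).symm c =
        c.sum fun b y => e b ⊗ₜ y := fun c =>
      TensorProduct.equivFinsuppOfBasisLeft_symm_apply e c
    have h2 : c = 0 := Finsupp.ext fun b => funext fun j => by
      by_cases hb : b ∈ c.support
      · refine linearIndependent_iff'.1 e.linearIndependent c.support (fun b => c b j)
          (funext fun i => ?_) b hb
        have h3 := congrFun ht (i, j)
        rw [h1, Finsupp.sum, map_sum, Finset.sum_apply] at h3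
        rw [Finset.sum_apply]
        exact (Finset.sum_congr rfl fun b _ => mul_comm _ _).trans h3
      · rw [Finsupp.notMem_support_iff.1 hb]
        rfl
    rw [h2, map_zero, map_zero]
  exact ⟨Φ, fun x y => h (x ⊗ₜ y)⟩

end lin

variable {K : Type} [Field K] {n : ℕ} (D : Der K n) {I I' σ σ' Λ L : Type} [AddCommGroup Λ]
  [LinearOrder Λ] [IsOrderedAddMonoid Λ] [CommRing L] [Algebra K L]

/-- the weight of a word -/
def wt (ω : σ → Λ) (l : List σ) : Λ := (l.map ω).sum

theorem wt_nil (ω : σ → Λ) : wt ω [] = 0 := rfl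

theorem wt_cons (ω : σ → Λ) (j : σ) (l : List σ) : wt ω (j :: l) = ω j + wt ω l := rfl

theorem wt_perm (ω : σ → Λ) {l l' : List σ} (h : l.Perm l') : wt ω l = wt ω l' :=
  (h.map ω).sum_eq

theorem wt_nonneg {ω : σ → Λ} (h : ∀ i, 0 < ω i) (l : List σ) : 0 ≤ wt ω l := by
  induction l with
  | nil => exact le_rfl
  | cons j l ih => exact add_nonneg (h j).le ih

theorem wt_replicate (ω : σ → Λ) (j : σ) (m : ℕ) : wt ω (List.replicate m j) = m • ω j := by
  simp [wt]

theorem wt_one (l : List σ) : wt (fun _ => (1 : ℝ)) l = l.length := by simp [wt]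

/-- the words of weight less than `s` -/
def Low (δ : σ → Fin n → K) (ω : σ → Λ) (x : I → K) (s : Λ) : Submodule K (I → K) :=
  Submodule.span K {y | ∃ l, wt ω l < s ∧ y = wd D δ l x}

/-- positive weights for which the brackets are of lower weight -/
structure Cp (δ : σ → Fin n → K) (ω : σ → Λ) : Prop where
  pos : ∀ i, 0 < ω i
  br : ∀ i j, br D (δ i) (δ j) ∈ Submodule.span K (δ '' {m | ω m < ω i + ω j})

/-- `φ` computes the function `h` on the words of weight `s` -/
def Fn (δ : σ → Fin n → K) (ω : σ → Λ) (x : I → K) (h : List σ → L) (s : Λ)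
    (φ : (I → K) →ₗ[K] L) : Prop :=
  ∀ l, (wt ω l < s → φ (wd D δ l x) = 0) ∧ (wt ω l = s → φ (wd D δ l x) = h l)

/-- `h` vanishes on the leading parts of the relations -/
def Adm (δ : σ → Fin n → K) (ω : σ → Λ) (x : I → K) (h : List σ → L) : Prop :=
  ∀ s, ∃ φ, Fn D δ ω x h s φ

/-- the value of a word at a point -/
def pr (μ : σ → L) (l : List σ) : L := (l.map μ).prod

theorem pr_cons (μ : σ → L) (j : σ) (l : List σ) : pr μ (j :: l) = μ j * pr μ l := rfl

/-- characteristic points -/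
def Pt (δ : σ → Fin n → K) (ω : σ → Λ) (x : I → K) (μ : σ → L) : Prop := Adm D δ ω x (pr μ)

/-- vectors of weight at most `s` with the value of their leading part -/
def Gr (δ : σ → Fin n → K) (ω : σ → Λ) (x : I → K) (μ : σ → L) (s : Λ) :
    Submodule K ((I → K) × L) :=
  Submodule.span K {p | ∃ l, (wt ω l < s ∧ p = (wd D δ l x, 0)) ∨
    (wt ω l = s ∧ p = (wd D δ l x, pr μ l))}

/-- the splittings of a word -/
def spl : List σ → List (List σ × List σ)
  | [] => [([], [])]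
  | j :: l => (spl l).map (fun p => (j :: p.1, p.2)) ++ (spl l).map fun p => (p.1, j :: p.2)

/-- the convolution -/
def conv (h h' : List σ → L) (l : List σ) : L := ((spl l).map fun p => h p.1 * h' p.2).sum

variable {D} {δ : σ → Fin n → K} {ω : σ → Λ} {x y : I → K} {s t : Λ} {l l' : List σ}
  {h h' : List σ → L} {μ ν : σ → L} {φ : (I → K) →ₗ[K] L}

theorem wd_mem_low (h : wt ω l < s) : wd D δ l x ∈ Low D δ ω x s :=
  Submodule.subset_span ⟨l, h, rfl⟩

theorem low_mono (h : s ≤ t) : Low D δ ω x s ≤ Low D δ ω x t :=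
  Submodule.span_mono fun _ ⟨l, h1, h2⟩ => ⟨l, h1.trans_le h, h2⟩

theorem low_ac (hp : ∀ i, 0 < ω i) (i : σ) (hy : y ∈ Low D δ ω x s) :
    ac D (δ i) y ∈ Low D δ ω x (ω i + s) := by
  refine ac_span D ?_ ?_ hy
  · rintro _ ⟨l, h1, rfl⟩
    exact wd_mem_low (h1.trans (lt_add_of_pos_left _ (hp i)))
  · rintro _ ⟨l, h1, rfl⟩
    exact wd_mem_low (l := i :: l) (add_lt_add_right h1 _)

theorem low_perm (hC : Cp D δ ω) (h : l.Perm l') :
    wd D δ l x - wd D δ l' x ∈ Low D δ ω x (wt ω l) := by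
  induction h with
  | nil => rw [sub_self]; exact Submodule.zero_mem _
  | cons j _ ih => rw [wd_cons, wd_cons, ← map_sub]; exact low_ac hC.pos j ih
  | swap i j l =>
    rw [wd_cons, wd_cons, wd_cons, wd_cons, ac_br, ← acx_apply]
    refine (Submodule.span_le (p := (Low D δ ω x _).comap (acx D _))).2 ?_ (hC.br j i)
    rintro _ ⟨m, hm, rfl⟩
    refine wd_mem_low (l := m :: l) ?_
    rw [wt_cons, wt_cons, wt_cons, ← add_assoc]
    exact add_lt_add_left hm _
  | trans h _ ih ih' =>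
    rw [← sub_add_sub_cancel]
    exact Submodule.add_mem _ ih (wt_perm ω h ▸ ih')

theorem low_kill (hφ : ∀ l, wt ω l < s → φ (wd D δ l x) = 0) (hy : y ∈ Low D δ ω x s) :
    φ y = 0 := by
  refine (Submodule.span_le (p := LinearMap.ker φ)).2 ?_ hy
  rintro _ ⟨l, h1, rfl⟩
  exact hφ l h1

theorem Fn.low (hφ : Fn D δ ω x h s φ) (hy : y ∈ Low D δ ω x s) : φ y = 0 :=
  low_kill (fun l => (hφ l).1) hy

theorem adm_of_fin (H : ∀ s (F : Finset (List σ)), ∃ φ : (I → K) →ₗ[K] L, ∀ l ∈ F,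
    (wt ω l < s → φ (wd D δ l x) = 0) ∧ (wt ω l = s → φ (wd D δ l x) = h l)) :
    Adm D δ ω x h := by
  classical
  intro s
  obtain ⟨φ, hφ⟩ := exists_factor
    (Finsupp.linearCombination K fun l : {l // wt ω l ≤ s} => wd D δ l.1 x)
    (Finsupp.linearCombination K fun l : {l // wt ω l ≤ s} => if wt ω l.1 = s then h l.1 else 0)
    fun c hc => by
    obtain ⟨φ, hφ⟩ := H s (c.support.image Subtype.val)
    refine Eq.trans ?_ ((congrArg φ hc).trans (map_zero φ))
    rw [Finsupp.linearCombination_apply, Finsupp.linearCombination_apply, Finsupp.sum, Finsupp.sum,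
      map_sum]
    refine Finset.sum_congr rfl fun l hl => ?_
    have h1 := hφ l.1 (Finset.mem_image_of_mem _ hl)
    rw [map_smul]
    split_ifs with e
    · rw [h1.2 e]
    · rw [h1.1 (lt_of_le_of_ne l.2 e)]
  refine ⟨φ, fun l => ⟨fun e => ?_, fun e => ?_⟩⟩
  · simpa [e.ne] using hφ (Finsupp.single ⟨l, e.le⟩ 1)
  · simpa [e] using hφ (Finsupp.single ⟨l, e.le⟩ 1)

theorem Adm.pull {r : I' → I} (H : Adm D δ ω (x ∘ r) h) : Adm D δ ω x h := fun s => by
  obtain ⟨φ, hφ⟩ := H s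
  refine ⟨φ.comp (LinearMap.funLeft K K r), fun l => ?_⟩
  have := hφ l
  rwa [wd_comp] at this

theorem wt_spl : ∀ p ∈ spl l, wt ω p.1 + wt ω p.2 = wt ω l := by
  induction l with
  | nil => simp [spl, wt]
  | cons j l ih =>
    intro p hp
    rcases List.mem_append.1 hp with hp | hp <;> obtain ⟨q, hq, rfl⟩ := List.mem_map.1 hp
    · rw [wt_cons, wt_cons, add_assoc, ih q hq]
    · rw [wt_cons, wt_cons, add_left_comm, ih q hq]

theorem wd_tn (x : I → K) (y : I' → K) (l : List σ) : wd D δ l (tn x y) =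
    ((spl l).map fun p => tn (wd D δ p.1 x) (wd D δ p.2 y)).sum := by
  induction l with
  | nil => simp [spl, wd_nil]
  | cons j l ih =>
    rw [wd_cons, ih, spl, map_list_sum, List.map_append, List.sum_append, List.map_map,
      List.map_map, List.map_map, ← List.sum_map_add]
    exact congrArg _ (List.map_congr_left fun p _ => ac_tn D _ _ _)

theorem Adm.tn {y : I' → K} (H : Adm D δ ω x h) (H' : Adm D δ ω y h') :
    Adm D δ ω (tn x y) (conv h h') := by
  classical
  choose φ hφ using H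
  choose ψ hψ using H'
  refine adm_of_fin fun s F => ?_
  let S := F.biUnion fun l => ((spl l).map fun p => wt ω p.1).toFinset
  obtain ⟨Φ, hΦ⟩ := exists_tn (∑ t ∈ S, (LinearMap.mul K L).compl₁₂ (φ t) (ψ (s - t)))
  refine ⟨Φ, fun l hl => ?_⟩
  have key : wt ω l ≤ s → ∀ p ∈ spl l, Φ (DA.tn (wd D δ p.1 x) (wd D δ p.2 y)) =
      h p.1 * ψ (s - wt ω p.1) (wd D δ p.2 y) := fun e p hp => by
    have h1 := wt_spl (ω := ω) p hp
    simp only [hΦ, LinearMap.sum_apply, LinearMap.compl₁₂_apply, LinearMap.mul_apply']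
    rw [Finset.sum_eq_single_of_mem (wt ω p.1), (hφ _ _).2 rfl]
    · exact Finset.mem_biUnion.2 ⟨l, hl, List.mem_toFinset.2 (List.mem_map.2 ⟨p, hp, rfl⟩)⟩
    · intro t _ ht
      rcases ht.lt_or_gt with ht | ht
      · rw [(hψ _ _).1 (lt_sub_iff_add_lt'.2 ((add_lt_add_left ht _).trans_le (h1.trans_le e))),
          mul_zero]
      · rw [(hφ _ _).1 ht, zero_mul]
  rw [wd_tn, map_list_sum, List.map_map]
  refine ⟨fun e => List.sum_eq_zero fun a ha => ?_,
    fun e => congrArg _ (List.map_congr_left fun p hp => ?_)⟩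
  · obtain ⟨p, hp, rfl⟩ := List.mem_map.1 ha
    rw [Function.comp_apply, key e.le p hp,
      (hψ _ _).1 (lt_sub_iff_add_lt'.2 ((wt_spl p hp).trans_lt e)), mul_zero]
  · rw [Function.comp_apply, key e.le p hp, (hψ _ _).2 (eq_sub_of_add_eq' ((wt_spl p hp).trans e))]

theorem Adm.pw {k k' : ℕ} (H : Adm D δ ω (pw x k) h) (H' : Adm D δ ω (pw x k') h') :
    Adm D δ ω (pw x (k + k')) (conv h h') := Adm.pull (by rw [pw_add]; exact H.tn H')

theorem conv_pr (μ ν : σ → L) : conv (pr μ) (pr ν) = pr (μ + ν) := funext fun l => by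
  induction l with
  | nil => simp [conv, spl, pr]
  | cons j l ih =>
    rw [pr_cons, ← ih, conv, conv, spl, List.map_append, List.sum_append, List.map_map,
      List.map_map, ← List.sum_map_add, ← List.sum_map_mul_left]
    refine congrArg _ (List.map_congr_left fun p _ => ?_)
    simp only [Function.comp_apply, pr_cons, Pi.add_apply]
    ring

theorem Pt.add {k k' : ℕ} (H : Pt D δ ω (pw x k) μ) (H' : Pt D δ ω (pw x k') ν) :
    Pt D δ ω (pw x (k + k')) (μ + ν) := by
  rw [Pt, ← conv_pr]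
  exact Adm.pw H H'

theorem pt_zero (hp : ∀ i, 0 < ω i) (hx : x ≠ 0) : Pt D δ ω x (0 : σ → L) := fun s => by
  obtain ⟨i, hi⟩ := Function.ne_iff.1 hx
  by_cases hs : s = 0
  · refine ⟨(Algebra.linearMap K L).comp ((x i)⁻¹ • LinearMap.proj i), fun l =>
      ⟨fun e => ((hs ▸ e).not_ge (wt_nonneg hp l)).elim, fun e => ?_⟩⟩
    cases l with
    | nil => simp [wd_nil, pr, inv_mul_cancel₀ (show x i ≠ 0 from hi)]
    | cons j l => exact ((add_pos_of_pos_of_nonneg (hp j) (wt_nonneg hp l)).ne' (e.trans hs)).elim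
  · refine ⟨0, fun l => ⟨fun _ => rfl, fun e => ?_⟩⟩
    cases l with
    | nil => exact (hs e.symm).elim
    | cons j l => exact (zero_mul _).symm

theorem pr_mul (χ μ : σ → L) (l : List σ) : pr (χ * μ) l = pr χ l * pr μ l := by
  induction l with
  | nil => exact (mul_one _).symm
  | cons j l ih => rw [pr_cons, pr_cons, pr_cons, ih, Pi.mul_apply, mul_mul_mul_comm]

theorem Pt.scale (H : Pt D δ ω x μ) (χ : σ → L)
    (hχ : ∀ l l', wt ω l = wt ω l' → pr χ l = pr χ l') : Pt D δ ω x (χ * μ) := fun s => by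
  obtain ⟨φ, hφ⟩ := H s
  by_cases hs : ∃ l, wt ω l = s
  · obtain ⟨l₀, h0⟩ := hs
    refine ⟨(LinearMap.mulLeft K (pr χ l₀)).comp φ, fun l => ⟨fun e => ?_, fun e => ?_⟩⟩
    · rw [LinearMap.comp_apply, (hφ l).1 e, map_zero]
    · rw [LinearMap.comp_apply, (hφ l).2 e, pr_mul, hχ l l₀ (e.trans h0.symm)]
      rfl
  · exact ⟨0, fun l => ⟨fun _ => rfl, fun e => (hs ⟨l, e⟩).elim⟩⟩

theorem pr_map {L' : Type} [CommRing L'] [Algebra K L'] (τ : L →ₐ[K] L') (μ : σ → L)
    (l : List σ) : τ (pr μ l) = pr (fun i => τ (μ i)) l := by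
  rw [pr, map_list_prod, List.map_map]
  rfl

theorem Pt.map {L' : Type} [CommRing L'] [Algebra K L'] (H : Pt D δ ω x μ) (τ : L →ₐ[K] L') :
    Pt D δ ω x fun i => τ (μ i) := fun s => by
  obtain ⟨φ, hφ⟩ := H s
  refine ⟨τ.toLinearMap.comp φ, fun l => ⟨fun e => ?_, fun e => ?_⟩⟩
  · rw [LinearMap.comp_apply, (hφ l).1 e, map_zero]
  · rw [LinearMap.comp_apply, (hφ l).2 e]
    exact pr_map τ μ l

theorem wd_mem_gr (e : wt ω l = s) : (wd D δ l x, pr μ l) ∈ Gr D δ ω x μ s :=
  Submodule.subset_span ⟨l, Or.inr ⟨e, rfl⟩⟩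

theorem gr_low (hy : y ∈ Low D δ ω x s) : (y, 0) ∈ Gr D δ ω x μ s := by
  refine (Submodule.span_le (p := (Gr D δ ω x μ s).comap (LinearMap.inl K _ _))).2 ?_ hy
  rintro _ ⟨l, h1, rfl⟩
  exact Submodule.subset_span ⟨l, Or.inl ⟨h1, rfl⟩⟩

theorem gr_fst {p : (I → K) × L} (hp : p ∈ Gr D δ ω x μ s) (h : s < t) : p.1 ∈ Low D δ ω x t := by
  refine (Submodule.span_le (p := (Low D δ ω x t).comap (LinearMap.fst K _ _))).2 ?_ hp
  rintro _ ⟨l, ⟨h1, rfl⟩ | ⟨h1, rfl⟩⟩
  · exact wd_mem_low (h1.trans h)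
  · exact wd_mem_low (h1.trans_lt h)

theorem Fn.gr (hφ : Fn D δ ω x (pr μ) s φ) {p : (I → K) × L} (hp : p ∈ Gr D δ ω x μ s) :
    φ p.1 = p.2 := by
  refine (Submodule.span_le (p := LinearMap.eqLocus (φ.comp (LinearMap.fst K _ _))
    (LinearMap.snd K _ _))).2 ?_ hp
  rintro _ ⟨l, ⟨h1, rfl⟩ | ⟨h1, rfl⟩⟩
  · exact (hφ l).1 h1
  · exact (hφ l).2 h1

theorem gr_step (hω : ∀ i, 0 < ω i) (i : σ) {p : (I → K) × L} (hp : p ∈ Gr D δ ω x μ s) :
    (ac D (δ i) p.1, μ i * p.2) ∈ Gr D δ ω x μ (ω i + s) := by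
  induction hp using Submodule.span_induction with
  | mem p hp =>
    obtain ⟨l, ⟨h1, rfl⟩ | ⟨h1, rfl⟩⟩ := hp
    · rw [mul_zero]
      exact gr_low (low_ac hω i (wd_mem_low h1))
    · exact wd_mem_gr (l := i :: l) (h1 ▸ rfl)
  | zero =>
    rw [Prod.fst_zero, Prod.snd_zero, map_zero, mul_zero]
    exact Submodule.zero_mem _
  | add p q _ _ hp hq =>
    rw [Prod.fst_add, Prod.snd_add, map_add, mul_add]
    exact Submodule.add_mem _ hp hq
  | smul c p hp hp' =>
    have h := Submodule.add_mem _ (Submodule.smul_mem _ (D.vf (δ i) c)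
      (gr_low (μ := μ) (gr_fst hp (lt_add_of_pos_left _ (hω i))))) (Submodule.smul_mem _ c hp')
    rw [Prod.smul_fst, Prod.smul_snd, ac_smul, mul_smul_comm]
    simpa using h

theorem gr_vf [Fintype σ] {s : ℝ} (a : σ → K) {p : (I → K) × L}
    (hp : p ∈ Gr D δ (fun _ => (1 : ℝ)) x μ s) :
    (ac D (∑ i, a i • δ i) p.1, (∑ i, a i • μ i) * p.2) ∈ Gr D δ (fun _ => (1 : ℝ)) x μ (1 + s) := by
  have h := Submodule.sum_mem _ fun i (_ : i ∈ Finset.univ) =>
    Submodule.smul_mem _ (a i) (gr_step (fun _ => one_pos) i hp)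
  convert h using 1
  refine Prod.ext ?_ ?_
  · simp only [Prod.fst_sum, Prod.smul_fst, ← acx_apply, map_sum, map_smul]
  · simp only [Prod.snd_sum, Prod.smul_snd, Finset.sum_mul, smul_mul_assoc]

theorem wd_mem_gr' [Fintype σ] (a : σ' → σ → K) (l : List σ') :
    (wd D (fun j => ∑ i, a j i • δ i) l x, pr (fun j => ∑ i, a j i • μ i) l) ∈
      Gr D δ (fun _ => (1 : ℝ)) x μ l.length := by
  induction l with
  | nil => exact wd_mem_gr (l := []) Nat.cast_zero.symm
  | cons j l ih =>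
    rw [List.length_cons, Nat.cast_succ, add_comm]
    exact gr_vf (a j) ih

/-- change of frame -/
theorem Pt.frame [Fintype σ] (H : Pt D δ (fun _ => (1 : ℝ)) x μ) (a : σ' → σ → K) :
    Pt D (fun j => ∑ i, a j i • δ i) (fun _ => (1 : ℝ)) x fun j => ∑ i, a j i • μ i := fun s => by
  obtain ⟨φ, hφ⟩ := H s
  refine ⟨φ, fun l => ⟨fun e => hφ.low (gr_fst (wd_mem_gr' (μ := μ) a l) (wt_one l ▸ e)),
    fun e => hφ.gr (p := (_, _)) ?_⟩⟩
  rw [← e, wt_one]
  exact wd_mem_gr' a l

theorem Pt.rel {ω : σ → ℝ} (H : Pt D δ ω x μ) {u : ℕ → I → K} {c : ℕ → L}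
    (hu : ∀ m : ℕ, (u m, c m) ∈ Gr D δ ω x μ m) {F : Submodule K (I → K)} (hF : F.FG)
    (h : ∀ m, u m ∈ F) : ∃ m, c m = 0 := by
  by_contra hc
  push Not at hc
  have h1 : LinearIndependent K u := indep_of_tri (L := L) id Function.injective_id u fun m => by
    obtain ⟨φ, hφ⟩ := H m
    exact ⟨φ, (hφ.gr (hu m)).trans_ne (hc m), fun j hj =>
      hφ.low (gr_fst (hu j) (Nat.cast_lt.2 hj))⟩
  haveI : Module.Finite K F := Module.Finite.iff_fg.2 hF
  exact Module.Finite.not_linearIndependent_of_infinite (fun m => (⟨u m, h m⟩ : F))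
    (LinearIndependent.of_comp F.subtype h1)

theorem pr_X [DecidableEq σ] (l : List σ) : pr (MvPolynomial.X : σ → MvPolynomial σ K) l =
    MvPolynomial.monomial (Multiset.toFinsupp (l : Multiset σ)) 1 := by
  induction l with
  | nil => rfl
  | cons j l ih =>
    rw [pr_cons, ih, ← Multiset.cons_coe, ← Multiset.singleton_add, map_add,
      Multiset.toFinsupp_singleton, MvPolynomial.X, MvPolynomial.monomial_mul, one_mul]

/-- Nullstellensatz -/
theorem exists_pow {L : Type} [Field L] [IsAlgClosed L] [Algebra K L] [Finite σ] (hC : Cp D δ ω)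
    {j : σ} (H : ∀ μ : σ → L, Pt D δ ω x μ → μ j = 0) :
    ∃ N, wd D δ (List.replicate N j) x ∈ Low D δ ω x (N • ω j) := by
  classical
  let T : Submodule K (MvPolynomial σ K) :=
    ⨆ s, (Gr D δ ω x MvPolynomial.X s).comap (LinearMap.inr K _ _)
  have hT : ∀ r, ∀ P ∈ T, r * P ∈ T := fun r => by
    induction r using MvPolynomial.induction_on with
    | C a => exact fun P hP => MvPolynomial.smul_eq_C_mul P a ▸ T.smul_mem a hP
    | add p q hp hq => exact fun P hP => (add_mul p q P).symm ▸ T.add_mem (hp P hP) (hq P hP)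
    | mul_X p i hp =>
      intro P hP
      rw [mul_assoc]
      refine hp _ (Submodule.iSup_induction _ (motive := fun P => MvPolynomial.X i * P ∈ T) hP
        (fun s P hP => Submodule.mem_iSup_of_mem (ω i + s) ?_) ?_ fun P Q hP hQ => ?_)
      · simpa using gr_step hC.pos i hP
      · rw [mul_zero]; exact T.zero_mem
      · rw [mul_add]; exact T.add_mem hP hQ
  let J : Ideal (MvPolynomial σ K) := { T with smul_mem' := fun r P hP => hT r P hP }
  have h1 : MvPolynomial.X j ∈ J.radical := by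
    rw [← MvPolynomial.vanishingIdeal_zeroLocus_eq_radical (K := L)]
    intro μ hμ
    rw [MvPolynomial.aeval_X]
    refine H μ fun s => ?_
    have h0 : ∀ p ∈ Gr D δ ω x (MvPolynomial.X : σ → MvPolynomial σ K) s, p.1 = 0 →
        MvPolynomial.aeval μ p.2 = 0 := fun p hp e => by
      have : p.2 ∈ T := by
        refine Submodule.mem_iSup_of_mem s ?_
        rw [Submodule.mem_comap, LinearMap.inr_apply, ← e]
        exact hp
      exact hμ _ this
    obtain ⟨φ, hφ⟩ := exists_factor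
      ((LinearMap.fst K _ _).comp (Gr D δ ω x (MvPolynomial.X : σ → MvPolynomial σ K) s).subtype)
      ((MvPolynomial.aeval μ).toLinearMap.comp ((LinearMap.snd K _ _).comp (Submodule.subtype _)))
      fun p hp => h0 p.1 p.2 hp
    refine ⟨φ, fun l => ⟨fun e =>
      (hφ ⟨_, gr_low (wd_mem_low e)⟩).trans (map_zero (MvPolynomial.aeval (R := K) μ)),
      fun e => (hφ ⟨_, wd_mem_gr e⟩).trans ((pr_map (MvPolynomial.aeval μ) _ l).trans ?_)⟩⟩
    simp only [MvPolynomial.aeval_X]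
  obtain ⟨N, hN⟩ := h1
  refine ⟨N, by_contra fun hc => ?_⟩
  obtain ⟨φ, h2, h3⟩ := Submodule.exists_dual_map_eq_bot_of_notMem hc inferInstance
  have h4 : ∀ y ∈ Low D δ ω x (N • ω j), φ y = 0 := fun y hy =>
    (Submodule.mem_bot K).1 (h3 ▸ Submodule.mem_map_of_mem hy)
  let ψ : MvPolynomial σ K →ₗ[K] K := (MvPolynomial.basisMonomials σ K).constr K fun α =>
    if wt ω α.toMultiset.toList = N • ω j then φ (wd D δ α.toMultiset.toList x) else 0
  have h5 : ∀ l, ψ (pr MvPolynomial.X l) = if wt ω l = N • ω j then φ (wd D δ l x) else 0 := by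
    intro l
    have e : (Multiset.toFinsupp (l : Multiset σ)).toMultiset.toList.Perm l := by
      rw [← Multiset.coe_eq_coe, Multiset.coe_toList, Multiset.toFinsupp_toMultiset]
    rw [pr_X]
    refine ((MvPolynomial.basisMonomials σ K).constr_basis K _ _).trans ?_
    rw [wt_perm ω e]
    split_ifs with e'
    · exact sub_eq_zero.1 ((map_sub φ _ _).symm.trans (h4 _ (e' ▸ wt_perm ω e ▸ low_perm hC e)))
    · rfl
  have h6 : ∀ s, ∀ p ∈ Gr D δ ω x MvPolynomial.X s,
      ψ p.2 = if s = N • ω j then φ p.1 else 0 := fun s p hp => by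
    split_ifs with e
    · refine (Submodule.span_le (p := LinearMap.eqLocus (ψ.comp (LinearMap.snd K _ _))
        (φ.comp (LinearMap.fst K _ _)))).2 ?_ hp
      rintro _ ⟨l, ⟨h1, rfl⟩ | ⟨h1, rfl⟩⟩
      · exact (map_zero ψ).trans (h4 _ (wd_mem_low (e ▸ h1))).symm
      · exact (h5 l).trans (if_pos (h1.trans e))
    · refine (Submodule.span_le (p := LinearMap.ker (ψ.comp (LinearMap.snd K _ _)))).2 ?_ hp
      rintro _ ⟨l, ⟨h1, rfl⟩ | ⟨h1, rfl⟩⟩
      · exact map_zero ψ
      · exact (h5 l).trans (if_neg (h1 ▸ e))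
  have h7 : ψ (MvPolynomial.X j ^ N) = 0 := by
    refine (iSup_le (a := LinearMap.ker ψ) fun s P hP => ?_ : T ≤ _) hN
    simpa using h6 s _ hP
  have h8 := h5 (List.replicate N j)
  rw [if_pos (wt_replicate ω j N), pr, List.map_replicate, List.prod_replicate, h7] at h8
  exact h2 h8.symm

end Vale.Agent.P284Z.DA
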